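import Vale.Agent.P042.Defs
import Mathlib

set_option autoImplicit false

namespace Vale.Agent.P042.H463

open Polynomial Finset Pointwise

variable {k a : ℕ}

theorem eval_mono (a k n : ℕ) : (C (a : ℤ) * X ^ k : ℤ[X]).eval (n : ℤ) = (a : ℤ) * (n : ℤ) ^ k := by
  simp

theorem diffFree_iff {h : ℤ[X]} {A : Finset ℤ} : DiffFree h A ↔
    ∀ x ∈ A, ∀ y ∈ A, ∀ n : ℕ, 1 ≤ n → h.eval (n : ℤ) = x - y → x - y = 0 := by
  unfold DiffFree
  constructor
  · intro H x hx y hy n hn he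
    have : x - y ∈ ((A : Set ℤ) - (A : Set ℤ)) ∩ {m : ℤ | ∃ n : ℕ, 1 ≤ n ∧ h.eval (n : ℤ) = m} :=
      ⟨Set.sub_mem_sub (by exact_mod_cast hx) (by exact_mod_cast hy), n, hn, he⟩
    exact H this
  · rintro H z ⟨⟨x, hx, y, hy, rfl⟩, n, hn, he⟩
    exact H x (by exact_mod_cast hx) y (by exact_mod_cast hy) n hn he

/-- Scaling by a `k`-th power. -/
theorem DiffFree.of_scale {A D : Finset ℤ} (hA : DiffFree (C (a : ℤ) * X ^ k : ℤ[X]) A) {u : ℕ}
    (hu : 1 ≤ u) (c : ℤ) (hD : ∀ d ∈ D, c + (u : ℤ) ^ k * d ∈ A) :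
    DiffFree (C (a : ℤ) * X ^ k : ℤ[X]) D := by
  rw [diffFree_iff] at hA ⊢
  intro x hx y hy n hn he
  rw [eval_mono] at he
  have h1 := hA _ (hD x hx) _ (hD y hy) (u * n) (Nat.one_le_iff_ne_zero.2 (by positivity)) (by
    rw [eval_mono]
    push_cast
    rw [mul_pow]
    linear_combination (u : ℤ) ^ k * he)
  have h2 : (u : ℤ) ^ k * (x - y) = 0 := by linear_combination h1
  rcases mul_eq_zero.1 h2 with h3 | h3
  · exfalso
    have : (0 : ℤ) < (u : ℤ) ^ k := by positivity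
    omega
  · exact h3

theorem DiffFree.mono {h : ℤ[X]} {A D : Finset ℤ} (hA : DiffFree h A) (hD : D ⊆ A) :
    DiffFree h D := by
  rw [diffFree_iff] at hA ⊢
  intro x hx y hy
  exact hA x (hD hx) y (hD hy)

/-- A difference free subset of `[0, n)` has at most `r_h(n)` elements. -/
theorem card_le_rMax' {h : ℤ[X]} {A : Finset ℤ} (hA : DiffFree h A) (n : ℕ)
    (hn : ∀ x ∈ A, 0 ≤ x ∧ x < n) : A.card ≤ rMax h n := by
  classical
  have h1 : (A.image fun x => x + 1).card = A.card :=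
    Finset.card_image_of_injective _ (add_left_injective 1)
  rw [← h1]
  unfold rMax
  refine Finset.le_sup (f := Finset.card) ?_
  rw [Finset.mem_filter, Finset.mem_powerset]
  refine ⟨?_, ?_⟩
  · intro z hz
    obtain ⟨x, hx, rfl⟩ := Finset.mem_image.1 hz
    have := hn x hx
    rw [Finset.mem_Icc]; omega
  · rw [diffFree_iff] at hA ⊢
    intro x hx y hy n hn he
    obtain ⟨x', hx', rfl⟩ := Finset.mem_image.1 hx
    obtain ⟨y', hy', rfl⟩ := Finset.mem_image.1 hy
    have := hA x' hx' y' hy' n hn (by rw [he]; ring)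
    omega

theorem one_le_rMax (h : ℤ[X]) {n : ℕ} (hn : 1 ≤ n) : 1 ≤ rMax h n := by
  have h1 : DiffFree h ({0} : Finset ℤ) := by
    rw [diffFree_iff]
    intro x hx y hy n _ _
    rw [Finset.mem_singleton] at hx hy
    rw [hx, hy]; simp
  have := card_le_rMax' h1 n (by
    intro x hx
    rw [Finset.mem_singleton] at hx
    subst hx
    constructor
    · simp
    · exact_mod_cast hn)
  simpa using this

end Vale.Agent.P042.H463
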