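import Mathlib

set_option autoImplicit false

namespace Vale.Agent.P042.H463

/-- The bound for a power of the base. -/
lemma num_pow {r : ℕ → ℕ} {C c : ℝ} (hr : ∀ N : ℕ, 1 ≤ N →
      (r N : ℝ) ≤ C * N * Real.exp (-(Real.log N) ^ c)) {b : ℕ} (hb : 1 ≤ b) (n : ℕ) :
    (r (b ^ n) : ℝ) ≤ C * (b : ℝ) ^ n * Real.exp (-(n * Real.log b) ^ c) := by
  have h := hr (b ^ n) (Nat.one_le_pow _ _ hb)
  rw [Nat.cast_pow, Real.log_pow] at h
  exact h

/-- Length of a block against the weight. -/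
lemma num_len {M W ε c l : ℝ} (hM : 0 < M) (hW : 0 < W) (hc1 : c < 1)
    (hce : (1 + ε) * (c - 1) = -ε) (hl0 : 0 < l) (hl : l ≤ M * W ^ (1 + ε)) :
    M ^ (c - 1) / W ^ ε ≤ l ^ (c - 1) := by
  have h1 : (M * W ^ (1 + ε)) ^ (c - 1) ≤ l ^ (c - 1) :=
    Real.rpow_le_rpow_of_nonpos hl0 hl (by linarith)
  rw [Real.mul_rpow hM.le (Real.rpow_nonneg hW.le _), ← Real.rpow_mul hW.le, hce,
    Real.rpow_neg hW.le] at h1
  rwa [div_eq_mul_inv]

lemma num_e1 {C Q : ℝ} (hC : 0 < C) (hQ : 0 < Q) (t : ℕ) (x : ℝ) :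
    Real.exp (t * (Real.log C + Real.log Q) - (t + 1) * x) =
      C ^ t * Q ^ t * Real.exp (-x) ^ t * Real.exp (-x) := by
  have h : (t : ℝ) * (Real.log C + Real.log Q) - (t + 1) * x =
      t * Real.log C + t * Real.log Q + t * (-x) + (-x) := by ring
  rw [h, Real.exp_add, Real.exp_add, Real.exp_add, Real.exp_nat_mul, Real.exp_nat_mul,
    Real.exp_nat_mul, Real.exp_log hC, Real.exp_log hQ]

/-- The product of the bounds of the blocks. -/
lemma num_prod {C Q b : ℝ} (hC : 0 < C) (hQ : 0 < Q) (m t m' L : ℕ) (hL : L = m * t + m') (x : ℝ) :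
    Q ^ t * (C * b ^ m * Real.exp (-x)) ^ t * (C * b ^ m' * Real.exp (-x)) = C * b ^ L *
        Real.exp (t * (Real.log C + Real.log Q) - (t + 1) * x) := by
  rw [num_e1 hC hQ, hL, pow_add, pow_mul, mul_pow, mul_pow]
  ring

/-- The goal in exponential form. -/
lemma num_goal {b β M c W ε : ℝ} (hb : 0 < b) (hβ : β = Real.log b) (L : ℕ) :
    (b ^ L) ^ (1 - M ^ (c - 1) / 4 / W ^ ε) =
      b ^ L * Real.exp (-(M ^ (c - 1) / W ^ ε / 4 * (L * β))) := by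
  have hN0 : 0 < b ^ L := by positivity
  rw [Real.rpow_sub hN0, Real.rpow_one, div_eq_mul_inv, ← Real.rpow_neg hN0.le,
    Real.rpow_def_of_pos hN0, Real.log_pow, hβ]
  congr 2
  ring

/-- The block length. -/
lemma num_block {B W ε β M : ℝ} {k : ℕ} (hk : 1 ≤ k) (hβp : 0 < β) (hβW : β ≤ W) (hW1 : 1 ≤ W)
    (hBp : 0 < B) (hε : 0 < ε) (hM : M = k * (B + 1)) :
    ∃ m : ℕ, 1 ≤ m ∧ k ∣ m ∧ B * W ^ (1 + ε) ≤ m * β ∧ m * β ≤ M * W ^ (1 + ε) := by
  have hWp : 0 < W := by linarith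
  have hkr : (1 : ℝ) ≤ k := by exact_mod_cast hk
  have hWe : 0 < W ^ (1 + ε) := Real.rpow_pos_of_pos hWp _
  have hceil : 0 < ⌈B * W ^ (1 + ε) / β⌉₊ := Nat.ceil_pos.2 (by positivity)
  refine ⟨k * ⌈B * W ^ (1 + ε) / β⌉₊, Nat.mul_pos hk hceil, ⟨_, rfl⟩, ?_, ?_⟩
  · have h1 := Nat.le_ceil (B * W ^ (1 + ε) / β)
    rw [div_le_iff₀ hβp] at h1
    rw [Nat.cast_mul]
    have h2 : (0 : ℝ) ≤ (⌈B * W ^ (1 + ε) / β⌉₊ : ℝ) * β := by positivity
    nlinarith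
  · have h1 := (Nat.ceil_lt_add_one (a := B * W ^ (1 + ε) / β) (by positivity)).le
    have h2 : (⌈B * W ^ (1 + ε) / β⌉₊ : ℝ) * β ≤ B * W ^ (1 + ε) + β := by
      have h3 := mul_le_mul_of_nonneg_right h1 hβp.le
      rwa [add_mul, div_mul_cancel₀ _ hβp.ne', one_mul] at h3
    have h4 : β ≤ W ^ (1 + ε) := by
      have h5 : W ^ (1 : ℝ) ≤ W ^ (1 + ε) := Real.rpow_le_rpow_of_exponent_le hW1 (by linarith)
      rw [Real.rpow_one] at h5
      linarith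
    rw [Nat.cast_mul, hM, mul_assoc, mul_assoc]
    apply mul_le_mul_of_nonneg_left _ (by linarith)
    linarith

/-- The exponent of the long words. -/
lemma num_exp {t L m : ℕ} {l β x y S A : ℝ} (hl0 : 0 < l) (hβ : 0 < β) (hl : l = m * β)
    (hS : 2 * S ≤ x) (hx0 : 0 ≤ x) (hx : x = l * y) (hy : A ≤ y) (hA : 0 ≤ A)
    (hL : L ≤ (t + 2) * m) : t * S - (t + 1) * x ≤ -(A / 4 * (L * β)) := by
  have ht0 : (0 : ℝ) ≤ t := Nat.cast_nonneg _
  have h7 : (t : ℝ) * S - (t + 1) * x ≤ -((t + 1) * x / 2) := by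
    have h1 : (t : ℝ) * (2 * S) ≤ t * x := mul_le_mul_of_nonneg_left hS ht0
    linarith
  refine h7.trans ?_
  apply neg_le_neg
  have h8 : (L : ℝ) * β ≤ 2 * (t + 1) * l := by
    have h9 : (L : ℝ) ≤ (t + 2) * m := by exact_mod_cast hL
    have h10 := mul_le_mul_of_nonneg_right h9 hβ.le
    rw [mul_assoc, ← hl] at h10
    have h12 : 0 ≤ (t : ℝ) * l := mul_nonneg ht0 hl0.le
    linarith
  have hy0 : 0 ≤ y := hA.trans hy
  have h11 : A / 4 * (L * β) ≤ y / 4 * (2 * (t + 1) * l) := by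
    apply mul_le_mul _ h8 (by positivity) (by positivity)
    linarith
  refine h11.trans (le_of_eq ?_)
  rw [hx]
  ring

/-- The exponent of the short words. -/
lemma num_short {L : ℕ} {l β c A : ℝ} (hc1 : c < 1) (hβ : 0 < β)
    (hLl : (L : ℝ) * β ≤ l) (hA : A ≤ l ^ (c - 1)) (hA0 : 0 ≤ A) :
    A / 4 * (L * β) ≤ (L * β) ^ c := by
  rcases Nat.eq_zero_or_pos L with h0 | h0
  · subst h0
    rw [Nat.cast_zero, zero_mul, mul_zero]
    exact Real.rpow_nonneg le_rfl _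
  · have hx0 : (0 : ℝ) < L * β := by
      have : (0 : ℝ) < L := by exact_mod_cast h0
      positivity
    have h2 : l ^ (c - 1) ≤ (L * β) ^ (c - 1) :=
      Real.rpow_le_rpow_of_nonpos hx0 hLl (by linarith)
    have h3 : (L * β) ^ c = (L * β) * (L * β) ^ (c - 1) := by
      rw [Real.rpow_sub hx0, Real.rpow_one]
      field_simp
    rw [h3, mul_comm (L * β)]
    apply mul_le_mul_of_nonneg_right _ hx0.le
    linarith

theorem num_auto (k : ℕ) (hk : 1 ≤ k) (r : ℕ → ℕ)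
    (H : ∀ c : ℝ, c < 1 → ∃ C : ℝ, 0 < C ∧ ∀ N : ℕ, 1 ≤ N →
      (r N : ℝ) ≤ C * N * Real.exp (-(Real.log N) ^ c))
    (ε : ℝ) (hε : 0 < ε) :
    ∃ δ K : ℝ, 0 < δ ∧ 0 < K ∧ ∀ b Q L X : ℕ, 2 ≤ b → 1 ≤ Q → X ≤ r (b ^ L) →
      (∀ m t m' : ℕ, 1 ≤ m → k ∣ m → L = m * t + m' →
        X ≤ Q ^ t * r (b ^ m) ^ t * r (b ^ m')) →
      (X : ℝ) ≤ K * ((b : ℝ) ^ L) ^ (1 - δ / (1 + Real.log (b * Q)) ^ ε) := by
  have h1ε : 0 < 1 + ε := by linarith
  obtain ⟨c, hc⟩ : ∃ c : ℝ, c = 1 / (1 + ε) := ⟨_, rfl⟩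
  have hc0 : 0 < c := by rw [hc]; positivity
  have hc1 : c < 1 := by rw [hc, div_lt_one h1ε]; linarith
  have hce1 : (1 + ε) * c = 1 := by rw [hc]; field_simp
  have hce : (1 + ε) * (c - 1) = -ε := by rw [mul_sub, hce1]; ring
  obtain ⟨C0, hC0, hr0⟩ := H c hc1
  obtain ⟨C, hC⟩ : ∃ C : ℝ, C = max C0 1 := ⟨_, rfl⟩
  have hC1 : 1 ≤ C := by rw [hC]; exact le_max_right _ _
  have hCp : 0 < C := by linarith
  have hr : ∀ N : ℕ, 1 ≤ N → (r N : ℝ) ≤ C * N * Real.exp (-(Real.log N) ^ c) := by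
    intro N hN
    refine (hr0 N hN).trans ?_
    have h1 : C0 ≤ C := by rw [hC]; exact le_max_left _ _
    gcongr
  have hlogC : 0 ≤ Real.log C := Real.log_nonneg hC1
  obtain ⟨D, hD⟩ : ∃ D : ℝ, D = 2 * (Real.log C + 1) := ⟨_, rfl⟩
  have hD2 : 2 ≤ D := by rw [hD]; linarith
  have hDp : 0 < D := by linarith
  obtain ⟨B, hB⟩ : ∃ B : ℝ, B = D ^ (1 + ε) := ⟨_, rfl⟩
  have hBp : 0 < B := by rw [hB]; exact Real.rpow_pos_of_pos hDp _
  have hBc : B ^ c = D := by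
    rw [hB, ← Real.rpow_mul hDp.le, hce1, Real.rpow_one]
  have hkr : (1 : ℝ) ≤ k := by exact_mod_cast hk
  obtain ⟨M, hM⟩ : ∃ M : ℝ, M = k * (B + 1) := ⟨_, rfl⟩
  have hMp : 0 < M := by rw [hM]; positivity
  refine ⟨M ^ (c - 1) / 4, C, by positivity, hCp, ?_⟩
  intro b Q L X hb hQ hXr hX
  have hb1 : 1 ≤ b := by omega
  have hbr : (2 : ℝ) ≤ b := by exact_mod_cast hb
  have hQr : (1 : ℝ) ≤ Q := by exact_mod_cast hQ
  have hbp : (0 : ℝ) < b := by linarith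
  have hQp : (0 : ℝ) < Q := by linarith
  obtain ⟨β, hβ⟩ : ∃ β : ℝ, β = Real.log b := ⟨_, rfl⟩
  have hβp : 0 < β := by rw [hβ]; exact Real.log_pos (by linarith)
  have hlogQ : 0 ≤ Real.log Q := Real.log_nonneg hQr
  obtain ⟨W, hW⟩ : ∃ W : ℝ, W = 1 + Real.log (b * Q) := ⟨_, rfl⟩
  have hW' : W = 1 + β + Real.log Q := by
    rw [hW, Real.log_mul hbp.ne' hQp.ne', hβ]; ring
  have hW1 : 1 ≤ W := by linarith
  have hWp : 0 < W := by linarith
  rw [← hW]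
  have hθp : 0 < M ^ (c - 1) / W ^ ε := by positivity
  have hN0 : (0 : ℝ) < (b : ℝ) ^ L := by positivity
  rw [num_goal hbp hβ L, ← mul_assoc]
  obtain ⟨m, hm1, hkm, hl1, hl2⟩ := num_block hk hβp (by linarith) hW1 hBp hε hM
  obtain ⟨l, hl⟩ : ∃ l : ℝ, l = m * β := ⟨_, rfl⟩
  rw [← hl] at hl1 hl2
  have hWe : 0 < W ^ (1 + ε) := Real.rpow_pos_of_pos hWp _
  have hl0 : 0 < l := lt_of_lt_of_le (by positivity) hl1
  have hkey := num_len hMp hWp hc1 hce hl0 hl2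
  have hlc : 2 * (Real.log C + Real.log Q) ≤ l ^ c := by
    have h1 : (B * W ^ (1 + ε)) ^ c ≤ l ^ c :=
      Real.rpow_le_rpow (by positivity) hl1 hc0.le
    rw [Real.mul_rpow hBp.le hWe.le, hBc, ← Real.rpow_mul hWp.le, hce1, Real.rpow_one, hD] at h1
    nlinarith
  have hlc1 : l ^ c = l * l ^ (c - 1) := by
    rw [Real.rpow_sub hl0, Real.rpow_one]
    field_simp
  by_cases hL : L < m
  · -- short words
    have h1 : (X : ℝ) ≤ r (b ^ L) := by exact_mod_cast hXr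
    refine h1.trans ((num_pow hr hb1 L).trans ?_)
    rw [← hβ]
    apply mul_le_mul_of_nonneg_left _ (by positivity)
    apply Real.exp_le_exp.2
    apply neg_le_neg
    refine num_short hc1 hβp ?_ hkey hθp.le
    rw [hl]
    have : (L : ℝ) ≤ m := by exact_mod_cast hL.le
    gcongr
  · -- long words
    rw [not_lt] at hL
    obtain ⟨t, m', hLm, hm', hm2⟩ : ∃ t m' : ℕ, L = m * t + m' ∧ m ≤ m' ∧ m' ≤ 2 * m := by
      have hq : 1 ≤ L / m := (Nat.one_le_div_iff (by omega)).2 hL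
      obtain ⟨t, ht⟩ := Nat.exists_eq_add_of_le hq
      refine ⟨t, m + L % m, ?_, by omega, ?_⟩
      · have h1 := Nat.div_add_mod L m
        rw [ht] at h1
        linarith
      · have := Nat.mod_lt L (show 0 < m by omega)
        omega
    have h1 := hX m t m' hm1 hkm hLm
    have h2 : (X : ℝ) ≤ (Q : ℝ) ^ t * (r (b ^ m) : ℝ) ^ t * r (b ^ m') := by exact_mod_cast h1
    have h3 : (r (b ^ m) : ℝ) ≤ C * (b : ℝ) ^ m * Real.exp (-l ^ c) := by
      have := num_pow hr hb1 m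
      rwa [← hβ, ← hl] at this
    have h4 : (r (b ^ m') : ℝ) ≤ C * (b : ℝ) ^ m' * Real.exp (-l ^ c) := by
      refine (num_pow hr hb1 m').trans ?_
      rw [← hβ]
      apply mul_le_mul_of_nonneg_left _ (by positivity)
      apply Real.exp_le_exp.2
      apply neg_le_neg
      apply Real.rpow_le_rpow hl0.le _ hc0.le
      rw [hl]
      have : (m : ℝ) ≤ m' := by exact_mod_cast hm'
      gcongr
    have h5 : (X : ℝ) ≤ (Q : ℝ) ^ t * (C * (b : ℝ) ^ m * Real.exp (-l ^ c)) ^ t *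
        (C * (b : ℝ) ^ m' * Real.exp (-l ^ c)) := by
      refine h2.trans ?_
      gcongr
    rw [num_prod hCp hQp m t m' L hLm (l ^ c)] at h5
    refine h5.trans ?_
    apply mul_le_mul_of_nonneg_left _ (by positivity)
    apply Real.exp_le_exp.2
    refine num_exp hl0 hβp hl hlc (Real.rpow_nonneg hl0.le _) hlc1 hkey hθp.le ?_
    rw [hLm]
    have : (t + 2) * m = m * t + 2 * m := by ring
    rw [this]
    exact Nat.add_le_add_left hm2 _

end Vale.Agent.P042.H463
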