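import Vale.Agent.P042.R2.H463.PathDefs
import Vale.Agent.P042.R2.H463.Base

set_option autoImplicit false

/-! Counting the numbers accepted by an automaton. -/

namespace Vale.Agent.P042.H463

open Polynomial Finset

variable {b Q : ℕ} {T : ℕ → Fin Q → ℕ → Fin Q → Prop}

theorem Path.lt (hb : 1 ≤ b) : ∀ {l j : ℕ} {p q : Fin Q} {v : ℕ}, Path b T j l p v q → v < b ^ l
  | 0, _, _, _, _, h => by
    obtain ⟨rfl, _⟩ := h
    simp
  | l + 1, j, p, q, v, h => by
    obtain ⟨d, w, p', hd, _, h1, rfl⟩ := h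
    have h2 := Path.lt hb h1
    calc d + b * w < b + b * w := by omega
      _ = b * (w + 1) := by ring
      _ ≤ b * b ^ l := Nat.mul_le_mul_left _ h2
      _ = b ^ (l + 1) := by ring

theorem path_add : ∀ (l₁ l₂ j : ℕ) (p q : Fin Q) (v : ℕ),
    Path b T j (l₁ + l₂) p v q ↔ ∃ (v₁ v₂ : ℕ) (p' : Fin Q), Path b T j l₁ p v₁ p' ∧
      Path b T (j + l₁) l₂ p' v₂ q ∧ v = v₁ + b ^ l₁ * v₂ := by
  intro l₁
  induction l₁ with
  | zero =>
    intro l₂ j p q v
    rw [Nat.zero_add]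
    constructor
    · intro h
      exact ⟨0, v, p, ⟨rfl, rfl⟩, by simpa using h, by simp⟩
    · rintro ⟨v₁, v₂, p', ⟨rfl, rfl⟩, h, rfl⟩
      simpa using h
  | succ l ih =>
    intro l₂ j p q v
    have e : l + 1 + l₂ = (l + l₂) + 1 := by ring
    rw [e]
    constructor
    · rintro ⟨d, w, p₁, hd, hT, h1, rfl⟩
      obtain ⟨v₁, v₂, p', h2, h3, rfl⟩ := (ih l₂ (j + 1) p₁ q w).1 h1
      refine ⟨d + b * v₁, v₂, p', ⟨d, v₁, p₁, hd, hT, h2, rfl⟩, ?_, by ring⟩
      have e' : j + (l + 1) = j + 1 + l := by ring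
      rw [e']; exact h3
    · rintro ⟨v₁, v₂, p', ⟨d, w, p₁, hd, hT, h2, rfl⟩, h3, rfl⟩
      refine ⟨d, w + b ^ l * v₂, p₁, hd, hT, (ih l₂ (j + 1) p₁ q _).2
        ⟨w, v₂, p', h2, ?_, rfl⟩, by ring⟩
      have e' : j + (l + 1) = j + 1 + l := by ring
      rw [← e']; exact h3

open Classical in
/-- The values of the paths between two sets of states. -/
noncomputable def vals (b : ℕ) {Q : ℕ} (T : ℕ → Fin Q → ℕ → Fin Q → Prop) (I : Fin Q → Prop)
    (j l : ℕ) (F : Fin Q → Prop) : Finset ℤ :=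
  ((range (b ^ l)).filter fun v => ∃ p q, I p ∧ F q ∧ Path b T j l p v q).image
    (fun v : ℕ => (v : ℤ))

theorem mem_vals (hb : 1 ≤ b) {I F : Fin Q → Prop} {j l : ℕ} {x : ℤ} : x ∈ vals b T I j l F ↔
    ∃ (v : ℕ) (p q : Fin Q), I p ∧ F q ∧ Path b T j l p v q ∧ (v : ℤ) = x := by
  classical
  unfold vals
  rw [Finset.mem_image]
  constructor
  · rintro ⟨v, hv, rfl⟩
    obtain ⟨_, p, q, hp, hq, h⟩ := Finset.mem_filter.1 hv
    exact ⟨v, p, q, hp, hq, h, rfl⟩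
  · rintro ⟨v, p, q, hp, hq, h, rfl⟩
    exact ⟨v, Finset.mem_filter.2 ⟨Finset.mem_range.2 (h.lt hb), p, q, hp, hq, h⟩, rfl⟩

theorem vals_lt (hb : 1 ≤ b) {I F : Fin Q → Prop} {j l : ℕ} :
    ∀ x ∈ vals b T I j l F, 0 ≤ x ∧ x < ((b ^ l : ℕ) : ℤ) := by
  intro x hx
  obtain ⟨v, p, q, _, _, h, rfl⟩ := (mem_vals hb).1 hx
  exact ⟨by positivity, by exact_mod_cast h.lt hb⟩

/-- **The counting inequality for automata.** -/
theorem card_vals {a k m : ℕ} (hb : 1 ≤ b) (hkm : k ∣ m) (I : Fin Q → Prop) :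
    ∀ (t m' : ℕ) (F : Fin Q → Prop),
      DiffFree (C (a : ℤ) * X ^ k : ℤ[X]) (vals b T I 0 (m * t + m') F) →
      (vals b T I 0 (m * t + m') F).card ≤ Q ^ t * rMax (C (a : ℤ) * X ^ k : ℤ[X]) (b ^ m) ^ t *
        rMax (C (a : ℤ) * X ^ k : ℤ[X]) (b ^ m') := by
  classical
  intro t
  induction t with
  | zero =>
    intro m' F h
    rw [pow_zero, pow_zero, one_mul, one_mul]
    have h2 := card_le_rMax' h (b ^ (m * 0 + m')) (vals_lt hb)
    simpa using h2
  | succ t ih =>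
    intro m' F h
    set A := vals b T I 0 (m * (t + 1) + m') F with hA
    set l := m * t + m with hl
    set r := rMax (C (a : ℤ) * X ^ k : ℤ[X]) (b ^ m) with hr
    set r' := rMax (C (a : ℤ) * X ^ k : ℤ[X]) (b ^ m') with hr'
    have hlen : m * (t + 1) + m' = l + m' := by rw [hl]; ring
    let V : Fin Q → Finset ℤ := fun p => vals b T I 0 l (fun q => q = p)
    let D : Fin Q → Finset ℤ := fun p => vals b T (fun q => q = p) l m' F
    -- the cut is at a `k`-th power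
    obtain ⟨c, hc⟩ : k ∣ l := by
      rw [hl]
      exact (Nat.dvd_add (hkm.mul_right t) hkm)
    have hbl : ((b ^ l : ℕ) : ℤ) = ((b ^ c : ℕ) : ℤ) ^ k := by
      rw [hc]; push_cast; rw [← pow_mul]; ring_nf
    -- the rectangles
    have hmem : ∀ p, ∀ v ∈ V p, ∀ d ∈ D p, v + ((b ^ l : ℕ) : ℤ) * d ∈ A := by
      intro p v hv d hd
      obtain ⟨v', p₁, q₁, hI, rfl, hP, rfl⟩ := (mem_vals hb).1 hv
      obtain ⟨d', p₂, q₂, rfl, hF, hP', rfl⟩ := (mem_vals hb).1 hd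
      rw [hA, mem_vals hb]
      refine ⟨v' + b ^ l * d', p₁, q₂, hI, hF, ?_, by push_cast; ring⟩
      rw [hlen, path_add]
      exact ⟨v', d', p₂, hP, by rw [Nat.zero_add]; exact hP', rfl⟩
    have hsub : A ⊆ Finset.univ.biUnion fun p : Fin Q =>
        (V p ×ˢ D p).image fun z : ℤ × ℤ => z.1 + ((b ^ l : ℕ) : ℤ) * z.2 := by
      intro x hx
      rw [hA, mem_vals hb] at hx
      obtain ⟨v, p, q, hI, hF, hP, rfl⟩ := hx
      rw [hlen, path_add] at hP
      obtain ⟨v₁, v₂, p', h1, h2, rfl⟩ := hP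
      rw [Finset.mem_biUnion]
      refine ⟨p', Finset.mem_univ _, ?_⟩
      rw [Finset.mem_image]
      refine ⟨((v₁ : ℤ), (v₂ : ℤ)), ?_, by push_cast; ring⟩
      rw [Finset.mem_product]
      refine ⟨(mem_vals hb).2 ⟨v₁, p, p', hI, rfl, h1, rfl⟩,
        (mem_vals hb).2 ⟨v₂, p', q, rfl, hF, by rw [Nat.zero_add] at h2; exact h2, rfl⟩⟩
    have hrect : ∀ p, (V p).card * (D p).card ≤ Q ^ t * r ^ t * r * r' := by
      intro p
      rcases (V p).eq_empty_or_nonempty with hV | ⟨v, hv⟩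
      · rw [hV]; simp
      rcases (D p).eq_empty_or_nonempty with hD | ⟨d, hd⟩
      · rw [hD]; simp
      have h1 : DiffFree (C (a : ℤ) * X ^ k : ℤ[X]) (V p) := by
        refine DiffFree.of_scale h (u := 1) le_rfl (((b ^ l : ℕ) : ℤ) * d) ?_
        intro v' hv'
        have := hmem p v' hv' d hd
        rw [Nat.cast_one, one_pow, one_mul, add_comm]
        exact this
      have h2 : DiffFree (C (a : ℤ) * X ^ k : ℤ[X]) (D p) := by
        refine DiffFree.of_scale h (u := b ^ c) (Nat.one_le_pow _ _ hb) v ?_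
        intro d' hd'
        rw [← hbl]
        exact hmem p v hv d' hd'
      have h3 : (V p).card ≤ Q ^ t * r ^ t * r := ih m (fun q => q = p) h1
      have h4 : (D p).card ≤ r' := card_le_rMax' h2 (b ^ m') (vals_lt hb)
      exact Nat.mul_le_mul h3 h4
    calc A.card ≤ _ := Finset.card_le_card hsub
      _ ≤ ∑ p : Fin Q, ((V p ×ˢ D p).image fun z : ℤ × ℤ =>
          z.1 + ((b ^ l : ℕ) : ℤ) * z.2).card := Finset.card_biUnion_le
      _ ≤ ∑ p : Fin Q, (V p).card * (D p).card := by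
        refine Finset.sum_le_sum fun p _ => ?_
        refine Finset.card_image_le.trans ?_
        rw [Finset.card_product]
      _ ≤ ∑ _p : Fin Q, Q ^ t * r ^ t * r * r' := Finset.sum_le_sum fun p _ => hrect p
      _ = Q ^ (t + 1) * r ^ (t + 1) * r' := by
        rw [Finset.sum_const, Finset.card_univ, Fintype.card_fin, smul_eq_mul]
        ring

/-- The counting inequality for a set accepted by an automaton. -/
theorem card_accepted {a k m : ℕ} (hb : 1 ≤ b) (hkm : k ∣ m) {I F : Fin Q → Prop}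
    {L : ℕ} {A : Finset ℤ} (hacc : AcceptedP b T I F L A)
    (hA : DiffFree (C (a : ℤ) * X ^ k : ℤ[X]) A) (t m' : ℕ) (hL : L = m * t + m') :
    A.card ≤ Q ^ t * rMax (C (a : ℤ) * X ^ k : ℤ[X]) (b ^ m) ^ t *
      rMax (C (a : ℤ) * X ^ k : ℤ[X]) (b ^ m') := by
  have h1 : A = vals b T I 0 L F := by
    ext x
    rw [hacc x, mem_vals hb]
  rw [h1, hL] at hA ⊢
  exact card_vals hb hkm I t m' F hA

theorem accepted_lt (hb : 1 ≤ b) {I F : Fin Q → Prop} {L : ℕ} {A : Finset ℤ}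
    (hacc : AcceptedP b T I F L A) : ∀ x ∈ A, 0 ≤ x ∧ x < ((b ^ L : ℕ) : ℤ) := by
  intro x hx
  obtain ⟨v, p, q, _, _, h, rfl⟩ := (hacc x).1 hx
  exact ⟨by positivity, by exact_mod_cast h.lt hb⟩

end Vale.Agent.P042.H463
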