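import Vale.Agent.P042.R2.H463.Auto

set_option autoImplicit false

/-! The base `b` words of a `b`-automatic set are accepted by an automaton with `2|σ| + 1` states. -/

namespace Vale.Agent.P042.H463

/-- One step of the automaton built from a deterministic automaton which reads the digits: the
states `some (s, f)` read the digits (`f`: the last digit was not zero), the state `none` reads the
zeros after the last digit. -/
def dfaStep {σ : Type} (M : DFA ℕ σ) (p : Option (σ × Bool)) (d : ℕ) (q : Option (σ × Bool)) :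
    Prop :=
  (∃ s f, p = some (s, f) ∧ q = some (M.step s d, decide (d ≠ 0))) ∨
  (∃ s, p = some (s, true) ∧ s ∈ M.accept ∧ d = 0 ∧ q = none) ∨
  (p = none ∧ d = 0 ∧ q = none)

/-- The final states. -/
def dfaFinal {σ : Type} (M : DFA ℕ σ) (q : Option (σ × Bool)) : Prop :=
  q = none ∨ ∃ s ∈ M.accept, q = some (s, true)

/-- Paths with states in any type. -/
def GPath (b : ℕ) {α : Type} (T : α → ℕ → α → Prop) : ℕ → α → ℕ → α → Prop
  | 0, p, v, q => v = 0 ∧ p = q
  | l + 1, p, v, q => ∃ (d w : ℕ) (p' : α), d < b ∧ T p d p' ∧ GPath b T l p' w q ∧ v = d + b * w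

theorem path_iff_gpath (b : ℕ) {Q : ℕ} {α : Type} (e : α ≃ Fin Q) (T : α → ℕ → α → Prop) :
    ∀ (l j : ℕ) (p : α) (v : ℕ) (q : α),
      Path b (fun _ x d y => T (e.symm x) d (e.symm y)) j l (e p) v (e q) ↔ GPath b T l p v q := by
  intro l
  induction l with
  | zero =>
    intro j p v q
    simp only [Path, GPath, e.injective.eq_iff]
  | succ l ih =>
    intro j p v q
    constructor
    · rintro ⟨d, w, p', hd, hT, h, hv⟩
      refine ⟨d, w, e.symm p', hd, ?_, (ih (j + 1) (e.symm p') w q).1 ?_, hv⟩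
      · simpa using hT
      · rwa [e.apply_symm_apply]
    · rintro ⟨d, w, p', hd, hT, h, hv⟩
      refine ⟨d, w, e p', hd, ?_, (ih (j + 1) p' w q).2 h, hv⟩
      simpa using hT

theorem gpath_none {σ : Type} (M : DFA ℕ σ) {b : ℕ} (hb : 2 ≤ b) :
    ∀ (l v : ℕ) (q : Option (σ × Bool)), GPath b (dfaStep M) l none v q ↔ v = 0 ∧ q = none := by
  intro l
  induction l with
  | zero =>
    intro v q
    simp only [GPath, eq_comm (a := none)]
  | succ l ih =>
    intro v q
    constructor
    · rintro ⟨d, w, p', hd, hT, h, hv⟩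
      rcases hT with ⟨s, f, h1, _⟩ | ⟨s, h1, _⟩ | ⟨_, h2, h3⟩
      · exact absurd h1 (by simp)
      · exact absurd h1 (by simp)
      · subst h3
        obtain ⟨rfl, rfl⟩ := (ih w q).1 h
        exact ⟨by simp [hv, h2], rfl⟩
    · rintro ⟨rfl, rfl⟩
      exact ⟨0, 0, none, by omega, Or.inr (Or.inr ⟨rfl, rfl, rfl⟩), (ih 0 none).2 ⟨rfl, rfl⟩, rfl⟩

theorem gpath_some {σ : Type} (M : DFA ℕ σ) {b : ℕ} (hb : 2 ≤ b) :
    ∀ (l : ℕ) (s : σ) (f : Bool) (v : ℕ),
      (∃ q, dfaFinal M q ∧ GPath b (dfaStep M) l (some (s, f)) v q) ↔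
        v < b ^ l ∧ M.evalFrom s (Nat.digits b v) ∈ M.accept ∧ (v = 0 → f = true) := by
  intro l
  induction l with
  | zero =>
    intro s f v
    constructor
    · rintro ⟨q, hq, rfl, rfl⟩
      rcases hq with h | ⟨s', hs', h⟩
      · exact absurd h (by simp)
      · obtain ⟨rfl, rfl⟩ : s = s' ∧ f = true := by simpa using h
        refine ⟨by simp, ?_, fun _ => rfl⟩
        simpa using hs'
    · rintro ⟨h1, h2, h3⟩
      have hv : v = 0 := by simpa using h1
      subst hv
      refine ⟨some (s, f), Or.inr ⟨s, ?_, by rw [h3 rfl]⟩, rfl, rfl⟩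
      simpa using h2
  | succ l ih =>
    intro s f v
    have hb0 : 0 < b := by omega
    constructor
    · rintro ⟨q, hq, d, w, p', hd, hT, h, hv⟩
      rcases hT with ⟨s1, f1, h1, h2⟩ | ⟨s1, h1, h2, h3, h4⟩ | ⟨h1, _⟩
      · obtain ⟨rfl, rfl⟩ : s = s1 ∧ f = f1 := by simpa using h1
        subst h2
        obtain ⟨g1, g2, g3⟩ := (ih (M.step s d) (decide (d ≠ 0)) w).1 ⟨q, hq, h⟩
        have hne : d ≠ 0 ∨ w ≠ 0 := by
          by_contra hcon
          push Not at hcon
          have := g3 hcon.2
          simp [hcon.1] at this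
        refine ⟨?_, ?_, ?_⟩
        · rw [hv]
          calc d + b * w < b + b * w := by omega
            _ = b * (w + 1) := by ring
            _ ≤ b * b ^ l := Nat.mul_le_mul_left _ g1
            _ = b ^ (l + 1) := by ring
        · rw [hv, Nat.digits_add b (by omega) d w hd hne, DFA.evalFrom_cons]
          exact g2
        · intro h0
          exfalso
          rw [hv] at h0
          rcases hne with hne | hne
          · omega
          · have : 0 < b * w := Nat.mul_pos hb0 (Nat.pos_of_ne_zero hne)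
            omega
      · obtain ⟨rfl, rfl⟩ : s = s1 ∧ f = true := by simpa using h1
        subst h4
        obtain ⟨rfl, rfl⟩ := (gpath_none M hb l w q).1 h
        subst h3
        have hv0 : v = 0 := by simpa using hv
        subst hv0
        refine ⟨by positivity, ?_, fun _ => rfl⟩
        simpa using h2
      · exact absurd h1 (by simp)
    · rintro ⟨h1, h2, h3⟩
      by_cases hv : v = 0
      · subst hv
        have hs : s ∈ M.accept := by simpa using h2
        exact ⟨none, Or.inl rfl, 0, 0, none, hb0,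
          Or.inr (Or.inl ⟨s, by rw [h3 rfl], hs, rfl, rfl⟩), (gpath_none M hb l 0 none).2 ⟨rfl, rfl⟩,
          rfl⟩
      · have hdw : v % b + b * (v / b) = v := Nat.mod_add_div v b
        have hne : v % b ≠ 0 ∨ v / b ≠ 0 := by
          by_contra hcon
          push Not at hcon
          rw [hcon.1, hcon.2] at hdw
          exact hv (by simpa using hdw.symm)
        have hd : v % b < b := Nat.mod_lt _ hb0
        have hw : v / b < b ^ l := by
          rw [Nat.div_lt_iff_lt_mul hb0]
          calc v < b ^ (l + 1) := h1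
            _ = b ^ l * b := by ring
        have hdig : Nat.digits b v = (v % b) :: Nat.digits b (v / b) := by
          conv_lhs => rw [← hdw]
          exact Nat.digits_add b (by omega) _ _ hd hne
        rw [hdig, DFA.evalFrom_cons] at h2
        obtain ⟨q, hq, hP⟩ := (ih (M.step s (v % b)) (decide (v % b ≠ 0)) (v / b)).2
          ⟨hw, h2, fun h0 => by
            have : v % b ≠ 0 := hne.resolve_right (fun hn => hn h0)
            simpa using this⟩
        exact ⟨q, hq, v % b, v / b, _, hd, Or.inl ⟨s, f, rfl, rfl⟩, hP, hdw.symm⟩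

theorem accepted_of_dfa {σ : Type} [Fintype σ] (M : DFA ℕ σ) {b : ℕ} (hb : 2 ≤ b) (S : Set ℕ)
    (hS : ∀ n : ℕ, n ∈ S ↔ Nat.digits b n ∈ M.accepts) (L : ℕ) (A : Finset ℤ)
    (hA : ∀ x : ℤ, x ∈ A ↔ ∃ n : ℕ, n < b ^ L ∧ n ∈ S ∧ (n : ℤ) = x) :
    ∃ (T : ℕ → Fin (2 * Fintype.card σ + 1) → ℕ → Fin (2 * Fintype.card σ + 1) → Prop)
      (I F : Fin (2 * Fintype.card σ + 1) → Prop), AcceptedP b T I F L A := by
  have hcard : Fintype.card (Option (σ × Bool)) = 2 * Fintype.card σ + 1 := by
    rw [Fintype.card_option, Fintype.card_prod, Fintype.card_bool, mul_comm]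
  let e : Option (σ × Bool) ≃ Fin (2 * Fintype.card σ + 1) := Fintype.equivFinOfCardEq hcard
  refine ⟨fun _ x d y => dfaStep M (e.symm x) d (e.symm y),
    fun p => e.symm p = some (M.start, true), fun q => dfaFinal M (e.symm q), ?_⟩
  intro x
  rw [hA]
  constructor
  · rintro ⟨n, hn, hnS, hx⟩
    have h1 := (hS n).1 hnS
    rw [DFA.mem_accepts] at h1
    obtain ⟨q, hq, hP⟩ := (gpath_some M hb L M.start true n).2 ⟨hn, h1, fun _ => rfl⟩
    refine ⟨n, e (some (M.start, true)), e q, ?_, ?_, (path_iff_gpath b e _ L 0 _ n q).2 hP, hx⟩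
    · exact e.symm_apply_apply _
    · change dfaFinal M (e.symm (e q))
      rwa [e.symm_apply_apply]
  · rintro ⟨v, p, q, hp, hq, hP, hx⟩
    have hp' : p = e (some (M.start, true)) := by
      rw [← e.symm_apply_eq]; exact hp
    have hP' : Path b (fun _ x d y => dfaStep M (e.symm x) d (e.symm y)) 0 L
        (e (some (M.start, true))) v (e (e.symm q)) := by
      rw [e.apply_symm_apply, ← hp']; exact hP
    have h1 := (path_iff_gpath b e (dfaStep M) L 0 _ v (e.symm q)).1 hP'
    obtain ⟨g1, g2, _⟩ := (gpath_some M hb L M.start true v).1 ⟨e.symm q, hq, h1⟩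
    refine ⟨v, g1, (hS v).2 ?_, hx⟩
    rw [DFA.mem_accepts]
    exact g2

end Vale.Agent.P042.H463
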