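import Vale.Agent.P042.R2.H463.Final
import Vale.Agent.P042.R2.H463.Dfa

set_option autoImplicit false

/-! Automatic sets. -/

namespace Vale.Agent.P042.H463

open Polynomial Finset

theorem exists_pow_between {b : ℕ} (hb : 2 ≤ b) {N : ℕ} (hN : 1 ≤ N) :
    ∃ L : ℕ, N ≤ b ^ L ∧ b ^ L ≤ b * N := by
  refine ⟨Nat.clog b N, Nat.le_pow_clog (by omega) N, ?_⟩
  rcases Nat.lt_or_ge 1 N with h | h
  · have h1 := Nat.pow_pred_clog_lt_self (b := b) (by omega) h
    have h2 : 0 < Nat.clog b N := Nat.clog_pos (by omega) h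
    obtain ⟨l, hl⟩ : ∃ l, Nat.clog b N = l + 1 := ⟨Nat.clog b N - 1, by omega⟩
    rw [hl] at h1 ⊢
    simp only [Nat.pred_succ] at h1
    rw [pow_succ, mul_comm]
    exact Nat.mul_le_mul_left _ h1.le
  · have : N = 1 := by omega
    subst this
    simp
    omega

theorem rpow_between {b N x e : ℝ} (hb : 1 ≤ b) (hN : 0 < N) (h1 : N ≤ x) (h2 : x ≤ b * N)
    (he : e ≤ 1) : x ^ e ≤ b * N ^ e := by
  have hNe : 0 < N ^ e := Real.rpow_pos_of_pos hN e
  rcases le_total 0 e with h0 | h0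
  · calc x ^ e ≤ (b * N) ^ e := Real.rpow_le_rpow (by linarith) h2 h0
      _ = b ^ e * N ^ e := Real.mul_rpow (by linarith) hN.le
      _ ≤ b ^ (1 : ℝ) * N ^ e := by
        have := Real.rpow_le_rpow_of_exponent_le hb he
        exact mul_le_mul_of_nonneg_right this hNe.le
      _ = b * N ^ e := by rw [Real.rpow_one]
  · calc x ^ e ≤ N ^ e := Real.rpow_le_rpow_of_nonpos hN h1 h0
      _ ≤ b * N ^ e := le_mul_of_one_le_left hNe.le hb

theorem dfa_bound {a k : ℕ} (ha : 1 ≤ a) (hk : 2 ≤ k) {ε : ℝ} (hε : 0 < ε) :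
    ∃ δ K : ℝ, 0 < δ ∧ 0 < K ∧ ∀ (b : ℕ) (σ : Type) [Fintype σ] (M : DFA ℕ σ) (S : Set ℕ),
      2 ≤ b → (∀ n : ℕ, n ∈ S ↔ Nat.digits b n ∈ M.accepts) →
      (∀ x ∈ S, ∀ y ∈ S, ∀ n : ℕ, 1 ≤ n → x ≠ y + a * n ^ k) →
      ∀ N : ℕ, 1 ≤ N → ((S ∩ Set.Iio N).ncard : ℝ) ≤
        K * b * (N : ℝ) ^ (1 - δ / (1 + Real.log (b * Fintype.card σ)) ^ ε) := by
  classical
  obtain ⟨δ₀, K, hδ₀, hK, h⟩ := auto_bound (a := a) (k := k) ha hk hε
  refine ⟨δ₀ / 3 ^ ε, K, by positivity, hK, ?_⟩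
  intro b σ _ M S hb hS hfree N hN
  obtain ⟨L, hL1, hL2⟩ := exists_pow_between hb hN
  -- the finite set
  let A : Finset ℤ := ((range (b ^ L)).filter fun n => n ∈ S).image (fun n : ℕ => (n : ℤ))
  have hA : ∀ x : ℤ, x ∈ A ↔ ∃ n : ℕ, n < b ^ L ∧ n ∈ S ∧ (n : ℤ) = x := by
    intro x
    simp only [A, Finset.mem_image, Finset.mem_filter, Finset.mem_range, and_assoc]
  obtain ⟨T, I, F, hacc⟩ := accepted_of_dfa M hb S hS L A hA
  have hAfree : DiffFree (C (a : ℤ) * X ^ k : ℤ[X]) A := by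
    rw [diffFree_iff]
    intro x hx y hy n hn he
    obtain ⟨x', _, hx', rfl⟩ := (hA x).1 hx
    obtain ⟨y', _, hy', rfl⟩ := (hA y).1 hy
    exfalso
    rw [eval_mono] at he
    refine hfree x' hx' y' hy' n hn ?_
    have : (x' : ℤ) = y' + a * (n : ℤ) ^ k := by linarith
    exact_mod_cast this
  have h1 := h b _ L T I F A hb hacc hAfree
  -- comparison of the cardinals
  have h2 : (S ∩ Set.Iio N).ncard ≤ A.card := by
    have e1 : A.card = ((range (b ^ L)).filter fun n => n ∈ S).card :=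
      Finset.card_image_of_injective _ Nat.cast_injective
    rw [e1, ← Set.ncard_coe_finset]
    refine Set.ncard_le_ncard ?_ (Finset.finite_toSet _)
    rintro n ⟨hn1, hn2⟩
    have hn3 : n < N := hn2
    have : n ∈ (range (b ^ L)).filter fun n => n ∈ S :=
      Finset.mem_filter.2 ⟨Finset.mem_range.2 (by omega), hn1⟩
    exact_mod_cast this
  have hb1 : (1 : ℝ) ≤ b := by exact_mod_cast (by omega : 1 ≤ b)
  have hN1 : (1 : ℝ) ≤ N := by exact_mod_cast hN
  have hσ : 1 ≤ Fintype.card σ := Fintype.card_pos_iff.2 ⟨M.start⟩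
  have hσ1 : (1 : ℝ) ≤ Fintype.card σ := by exact_mod_cast hσ
  set Q : ℕ := 2 * Fintype.card σ + 1 with hQ
  have hQ1 : (1 : ℝ) ≤ Q := by rw [hQ]; push_cast; linarith
  -- the logarithms
  have hlog : 1 + Real.log (b * Q) ≤ 3 * (1 + Real.log (b * Fintype.card σ)) := by
    have e1 : (b : ℝ) * Q ≤ 3 * (b * Fintype.card σ) := by
      rw [hQ]; push_cast
      nlinarith
    have e2 : Real.log (b * Q) ≤ Real.log (3 * (b * Fintype.card σ)) :=
      Real.log_le_log (by positivity) e1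
    have hb0 : (0 : ℝ) < b := by linarith
    have e5 : Real.log (3 * ((b : ℝ) * Fintype.card σ)) =
        Real.log 3 + Real.log (b * Fintype.card σ) :=
      Real.log_mul (by norm_num) (by positivity)
    rw [e5] at e2
    have e3 : Real.log 3 ≤ 2 := by
      have := Real.log_le_sub_one_of_pos (by norm_num : (0 : ℝ) < 3)
      linarith
    have e4 : 0 ≤ Real.log (b * Fintype.card σ) := Real.log_nonneg (by nlinarith)
    linarith
  have hW0 : 0 < 1 + Real.log (b * Q) := by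
    have : 0 ≤ Real.log (b * Q) := Real.log_nonneg (by nlinarith)
    linarith
  have hW1 : 0 < 1 + Real.log (b * Fintype.card σ) := by
    have : 0 ≤ Real.log (b * Fintype.card σ) := Real.log_nonneg (by nlinarith)
    linarith
  have hθ : δ₀ / 3 ^ ε / (1 + Real.log (b * Fintype.card σ)) ^ ε ≤
      δ₀ / (1 + Real.log (b * Q)) ^ ε := by
    rw [div_div, ← Real.mul_rpow (by norm_num) hW1.le]
    refine div_le_div_of_nonneg_left hδ₀.le (by positivity) ?_
    exact Real.rpow_le_rpow hW0.le hlog hε.le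
  have hx1 : (N : ℝ) ≤ (b : ℝ) ^ L := by exact_mod_cast hL1
  have hx2 : (b : ℝ) ^ L ≤ b * N := by exact_mod_cast hL2
  have hθ0 : 0 ≤ δ₀ / (1 + Real.log (b * Q)) ^ ε := by positivity
  calc ((S ∩ Set.Iio N).ncard : ℝ) ≤ A.card := by exact_mod_cast h2
    _ ≤ K * ((b : ℝ) ^ L) ^ (1 - δ₀ / (1 + Real.log (b * Q)) ^ ε) := h1
    _ ≤ K * (b * (N : ℝ) ^ (1 - δ₀ / (1 + Real.log (b * Q)) ^ ε)) := by
      refine mul_le_mul_of_nonneg_left ?_ hK.le
      exact rpow_between hb1 (by linarith) hx1 hx2 (by linarith)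
    _ ≤ K * (b * (N : ℝ) ^ (1 - δ₀ / 3 ^ ε / (1 + Real.log (b * Fintype.card σ)) ^ ε)) := by
      refine mul_le_mul_of_nonneg_left ?_ hK.le
      refine mul_le_mul_of_nonneg_left ?_ (by linarith)
      exact Real.rpow_le_rpow_of_exponent_le hN1 (by linarith)
    _ = _ := by ring

end Vale.Agent.P042.H463
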