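import Vale.Agent.P042.Defs

set_option autoImplicit false

/-! P042: sets of integers which are unions of few rectangles at a cut of the digits. -/

namespace Vale.Agent.P042.H463

/-- At the cut `s` the set `A` is a union of at most `Q` rectangles
`{u + s v : u ∈ U, v ∈ V}`, `U ⊆ [0, s)`. -/
def Covered (A : Finset ℤ) (s Q : ℕ) : Prop :=
  ∃ U V : Fin Q → Finset ℤ, (∀ j, ∀ u ∈ U j, 0 ≤ u ∧ u < s) ∧
    ∀ x : ℤ, x ∈ A ↔ ∃ j, ∃ u ∈ U j, ∃ v ∈ V j, x = u + s * v

end Vale.Agent.P042.H463
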