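import Vale.Agent.P042.R2.H463.Final
import Vale.Agent.P042.R2.H463.CoverDefs

set_option autoImplicit false

/-! Sets which are unions of few rectangles at every cut. -/

namespace Vale.Agent.P042.H463

open Polynomial Finset Vale.Agent.P042.SS

/-- The cut information is at most the logarithm of the number of rectangles. -/
theorem cutInfo_le_log {A : Finset ℤ} (hne : A.Nonempty) {s Q : ℕ} (hs : 1 ≤ s)
    (h : Covered A s Q) : cutInfo A s ≤ Real.log Q := by
  classical
  obtain ⟨U, V, hU, hA⟩ := h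
  have hs0 : (0 : ℤ) < s := by exact_mod_cast hs
  have hc0 : 0 < A.card := hne.card_pos
  have hc : (0 : ℝ) < A.card := by exact_mod_cast hc0
  have hdiv : ∀ j, ∀ u ∈ U j, ∀ v : ℤ, (u + s * v) / (s : ℤ) = v ∧ (u + s * v) % (s : ℤ) = u := by
    intro j u hu v
    obtain ⟨h1, h2⟩ := hU j u hu
    constructor
    · rw [Int.add_mul_ediv_left _ _ hs0.ne', Int.ediv_eq_zero_of_lt h1 h2, zero_add]
    · rw [Int.add_mul_emod_self_left, Int.emod_eq_of_lt h1 h2]
  -- a rectangle for each element
  have hex : ∀ x ∈ A, ∃ j, x % (s : ℤ) ∈ U j ∧ x / (s : ℤ) ∈ V j := by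
    intro x hx
    obtain ⟨j, u, hu, v, hv, rfl⟩ := (hA x).1 hx
    exact ⟨j, by rw [(hdiv j u hu v).2]; exact hu, by rw [(hdiv j u hu v).1]; exact hv⟩
  have hQ : 0 < Q := by
    obtain ⟨x, hx⟩ := hne
    obtain ⟨j, _⟩ := hex x hx
    exact j.pos
  have hQr : (0 : ℝ) < Q := by exact_mod_cast hQ
  have : Nonempty (Fin Q) := ⟨⟨0, hQ⟩⟩
  choose! J hJ using hex
  -- degrees
  have hd1 : ∀ x ∈ A, (U (J x)).card ≤ (A.filter fun y => y / (s : ℤ) = x / (s : ℤ)).card := by
    intro x hx
    have hinj : Function.Injective fun u : ℤ => u + s * (x / (s : ℤ)) := add_left_injective _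
    rw [← Finset.card_image_of_injective _ hinj]
    refine Finset.card_le_card ?_
    intro z hz
    obtain ⟨u, hu, rfl⟩ := mem_image.1 hz
    exact mem_filter.2 ⟨(hA _).2 ⟨J x, u, hu, _, (hJ x hx).2, rfl⟩, (hdiv _ u hu _).1⟩
  have hd2 : ∀ x ∈ A, (V (J x)).card ≤ (A.filter fun y => y % (s : ℤ) = x % (s : ℤ)).card := by
    intro x hx
    have hinj : Function.Injective fun v : ℤ => x % (s : ℤ) + s * v := by
      intro v v' hvv
      have h1 : x % (s : ℤ) + s * v = x % (s : ℤ) + s * v' := hvv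
      exact mul_left_cancel₀ hs0.ne' (add_left_cancel h1)
    rw [← Finset.card_image_of_injective _ hinj]
    refine Finset.card_le_card ?_
    intro z hz
    obtain ⟨v, hv, rfl⟩ := mem_image.1 hz
    exact mem_filter.2 ⟨(hA _).2 ⟨J x, _, (hJ x hx).1, v, hv, rfl⟩, (hdiv _ _ (hJ x hx).1 _).2⟩
  have hU0 : ∀ x ∈ A, 0 < (U (J x)).card := fun x hx => Finset.card_pos.2 ⟨_, (hJ x hx).1⟩
  have hV0 : ∀ x ∈ A, 0 < (V (J x)).card := fun x hx => Finset.card_pos.2 ⟨_, (hJ x hx).2⟩
  -- the terms
  have hterm : ∀ x ∈ A, uw A x * -Real.log (pr A (uw A) (fun y : ℤ => y / (s : ℤ)) x) +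
      uw A x * -Real.log (pr A (uw A) (fun y : ℤ => y % (s : ℤ)) x) - uw A x * Real.log A.card ≤
      uw A x * (A.card / ((U (J x)).card * (V (J x)).card * Q) - 1 + Real.log Q) := by
    intro x hx
    have hu : (0 : ℝ) < (U (J x)).card := by exact_mod_cast hU0 x hx
    have hv : (0 : ℝ) < (V (J x)).card := by exact_mod_cast hV0 x hx
    have e1 : ((U (J x)).card : ℝ) ≤ ((A.filter fun y => y / (s : ℤ) = x / (s : ℤ)).card : ℝ) := by
      exact_mod_cast hd1 x hx
    have e2 : ((V (J x)).card : ℝ) ≤ ((A.filter fun y => y % (s : ℤ) = x % (s : ℤ)).card : ℝ) := by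
      exact_mod_cast hd2 x hx
    have e3 := Real.log_le_log hu e1
    have e4 := Real.log_le_log hv e2
    have e5 : (0 : ℝ) < ((A.filter fun y => y / (s : ℤ) = x / (s : ℤ)).card : ℝ) := by linarith
    have e6 : (0 : ℝ) < ((A.filter fun y => y % (s : ℤ) = x % (s : ℤ)).card : ℝ) := by linarith
    rw [pr_uw, pr_uw, Real.log_div e5.ne' hc.ne', Real.log_div e6.ne' hc.ne']
    have e7 : Real.log (A.card / ((U (J x)).card * (V (J x)).card * Q)) ≤
        A.card / ((U (J x)).card * (V (J x)).card * Q) - 1 :=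
      Real.log_le_sub_one_of_pos (by positivity)
    rw [Real.log_div hc.ne' (by positivity), Real.log_mul (by positivity) hQr.ne',
      Real.log_mul hu.ne' hv.ne'] at e7
    have e8 : (0 : ℝ) ≤ uw A x := uw_nonneg A x hx
    have e9 : -(Real.log ((A.filter fun y => y / (s : ℤ) = x / (s : ℤ)).card : ℝ) -
          Real.log A.card) + -(Real.log ((A.filter fun y => y % (s : ℤ) = x % (s : ℤ)).card : ℝ) -
          Real.log A.card) - Real.log A.card ≤
        A.card / ((U (J x)).card * (V (J x)).card * Q) - 1 + Real.log Q := by linarith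
    have := mul_le_mul_of_nonneg_left e9 e8
    linarith
  -- the sum
  have hsum := Finset.sum_le_sum hterm
  rw [Finset.sum_sub_distrib, Finset.sum_add_distrib, ← Finset.sum_mul, uw_sum hne, one_mul] at hsum
  have hL : cutInfo A s = (∑ x ∈ A, uw A x * -Real.log (pr A (uw A) (fun y : ℤ => y / (s : ℤ)) x) +
      ∑ x ∈ A, uw A x * -Real.log (pr A (uw A) (fun y : ℤ => y % (s : ℤ)) x)) -
      Real.log A.card := by
    rw [cutInfo_eq A hne s]
    unfold Ent
    simp only [mul_neg, Finset.sum_neg_distrib]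
  rw [hL]
  refine hsum.trans ?_
  have hsplit : ∑ x ∈ A, uw A x * (A.card / ((U (J x)).card * (V (J x)).card * Q) - 1 +
      Real.log Q) = (∑ x ∈ A, uw A x * (A.card / ((U (J x)).card * (V (J x)).card * Q))) +
      (-1 + Real.log Q) := by
    have : ∀ x ∈ A, uw A x * (A.card / ((U (J x)).card * (V (J x)).card * Q) - 1 + Real.log Q) =
        uw A x * (A.card / ((U (J x)).card * (V (J x)).card * Q)) +
        uw A x * (-1 + Real.log Q) := fun x _ => by ring
    rw [Finset.sum_congr rfl this, Finset.sum_add_distrib, ← Finset.sum_mul, uw_sum hne, one_mul]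
  rw [hsplit]
  have hfin : ∑ x ∈ A, uw A x * (A.card / ((U (J x)).card * (V (J x)).card * Q)) ≤ 1 := by
    have h1 : ∀ x ∈ A, uw A x * (A.card / ((U (J x)).card * (V (J x)).card * Q)) =
        1 / ((U (J x)).card * (V (J x)).card * Q) := by
      intro x _
      unfold uw
      field_simp
    rw [Finset.sum_congr rfl h1]
    have h2 : ∑ x ∈ A, (1 : ℝ) / ((U (J x)).card * (V (J x)).card * Q) =
        ∑ j : Fin Q, ∑ x ∈ A.filter (fun x => J x = j),
          (1 : ℝ) / ((U (J x)).card * (V (J x)).card * Q) :=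
      (Finset.sum_fiberwise_of_maps_to (fun x _ => Finset.mem_univ (J x)) _).symm
    rw [h2]
    have h3 : ∀ j ∈ (Finset.univ : Finset (Fin Q)), ∑ x ∈ A.filter (fun x => J x = j),
        (1 : ℝ) / ((U (J x)).card * (V (J x)).card * Q) ≤ 1 / Q := by
      intro j _
      have h4 : ∑ x ∈ A.filter (fun x => J x = j),
          (1 : ℝ) / ((U (J x)).card * (V (J x)).card * Q) =
          (A.filter (fun x => J x = j)).card * (1 / ((U j).card * (V j).card * Q)) := by
        rw [← nsmul_eq_mul, ← Finset.sum_const]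
        refine Finset.sum_congr rfl fun x hx => ?_
        rw [(mem_filter.1 hx).2]
      rw [h4]
      rcases Nat.eq_zero_or_pos (A.filter (fun x => J x = j)).card with h5 | h5
      · rw [h5, Nat.cast_zero, zero_mul]
        positivity
      · obtain ⟨x, hx⟩ := Finset.card_pos.1 h5
        obtain ⟨hx1, hx2⟩ := mem_filter.1 hx
        have hu : (0 : ℝ) < (U j).card := by
          have := hU0 x hx1
          rw [hx2] at this
          exact_mod_cast this
        have hv : (0 : ℝ) < (V j).card := by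
          have := hV0 x hx1
          rw [hx2] at this
          exact_mod_cast this
        have h6 : (A.filter (fun x => J x = j)).card ≤ (U j).card * (V j).card := by
          rw [← Finset.card_product]
          refine Finset.card_le_card_of_injOn (fun x => (x % (s : ℤ), x / (s : ℤ))) ?_ ?_
          · intro y hy
            obtain ⟨hy1, hy2⟩ := mem_filter.1 (Finset.mem_coe.1 hy)
            have := hJ y hy1
            rw [hy2] at this
            exact Finset.mem_coe.2 (Finset.mem_product.2 this)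
          · intro y _ z _ hyz
            have e1 : y % (s : ℤ) = z % (s : ℤ) := (Prod.ext_iff.1 hyz).1
            have e2 : y / (s : ℤ) = z / (s : ℤ) := (Prod.ext_iff.1 hyz).2
            rw [← Int.mul_ediv_add_emod y s, ← Int.mul_ediv_add_emod z s, e1, e2]
        have h7 : ((A.filter (fun x => J x = j)).card : ℝ) ≤ (U j).card * (V j).card := by
          exact_mod_cast h6
        rw [mul_one_div, div_le_div_iff₀ (by positivity) hQr]
        nlinarith
    refine (Finset.sum_le_sum h3).trans (le_of_eq ?_)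
    rw [Finset.sum_const, Finset.card_univ, Fintype.card_fin, nsmul_eq_mul, mul_one_div,
      div_self hQr.ne']
  linarith

/-- Sets which are unions of few rectangles at every cut. -/
theorem cover_bound {a k : ℕ} (ha : 1 ≤ a) (hk : 2 ≤ k) {ε : ℝ} (hε : 0 < ε) :
    ∃ δ K : ℝ, 0 < δ ∧ 0 < K ∧ ∀ (b Q L : ℕ) (A : Finset ℤ), 2 ≤ b →
      (∀ x ∈ A, 0 ≤ x ∧ x < ((b ^ L : ℕ) : ℤ)) →
      (∀ i, 1 ≤ i → i ≤ L → k ∣ i → Covered A (b ^ i) Q) →
      1 ≤ Q → DiffFree (C (a : ℤ) * X ^ k : ℤ[X]) A →
      (A.card : ℝ) ≤ K * ((b : ℝ) ^ L) ^ (1 - δ / (1 + Real.log (b * Q)) ^ ε) := by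
  obtain ⟨δ, K, hδ, hK, h⟩ := num_auto k (by omega) (rMax (C (a : ℤ) * X ^ k : ℤ[X]))
    (almostPower ha hk) ε hε
  refine ⟨δ, K, hδ, hK, ?_⟩
  intro b Q L A hb hA1 hcov hQ hA
  rcases A.eq_empty_or_nonempty with rfl | hne
  · rw [Finset.card_empty, Nat.cast_zero]
    positivity
  refine h b Q L A.card hb hQ (card_le_rMax' hA _ hA1) ?_
  intro m t m' hm hkm hL
  obtain ⟨e, he⟩ := hkm
  have hr0 : ∀ n : ℕ, 1 ≤ rMax (C (a : ℤ) * X ^ k : ℤ[X]) (b ^ n) := fun n =>
    one_le_rMax _ (Nat.one_le_pow _ _ (by omega))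
  have hdec := decoupling (a := a) (k := k) t
    (fun i => if i ≤ t then b ^ (m * i) else b ^ L)
    (fun i => if i < t then b ^ m else b ^ m') (fun i => b ^ (e * i)) (by simp)
    (fun i _ => by
      split_ifs
      · exact Nat.one_le_pow _ _ (by omega)
      · exact Nat.one_le_pow _ _ (by omega))
    (fun i hi => by
      rcases Nat.lt_or_ge i t with hit | hit
      · rw [if_pos (by omega), if_pos hit, if_pos hi, ← pow_add]
        congr 1
        ring
      · have : i = t := le_antisymm hi hit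
        subst this
        rw [if_neg (by omega), if_neg (by omega), if_pos le_rfl, ← pow_add, hL]
        congr 1
        ring)
    (fun i hi => by
      rw [if_pos hi]
      refine ⟨Nat.one_le_pow _ _ (by omega), ?_⟩
      rw [he, ← pow_mul]
      congr 1
      ring) hne hA (fun x hx => by
      have := hA1 x hx
      rw [if_neg (by omega)]
      exact this)
  have hcut : ∑ i ∈ range t, cutInfo A ((fun i => if i ≤ t then b ^ (m * i) else b ^ L) (i + 1)) ≤
      t * Real.log Q := by
    have h1 : ∀ i ∈ range t, cutInfo A ((fun i => if i ≤ t then b ^ (m * i) else b ^ L) (i + 1)) ≤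
        Real.log Q := by
      intro i hi
      have hi' := mem_range.1 hi
      dsimp only
      rw [if_pos (by omega)]
      refine cutInfo_le_log hne (Nat.one_le_pow _ _ (by omega)) (hcov _ ?_ ?_ ?_)
      · exact Nat.mul_pos hm (by omega)
      · rw [hL]
        have : m * (i + 1) ≤ m * t := Nat.mul_le_mul_left _ (by omega)
        omega
      · rw [he]
        exact ⟨e * (i + 1), by ring⟩
    refine (Finset.sum_le_sum h1).trans (le_of_eq ?_)
    rw [sum_const, card_range, nsmul_eq_mul]
  have hmain : ∑ i ∈ range (t + 1), Real.log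
      (rMax (C (a : ℤ) * X ^ k : ℤ[X]) ((fun i => if i < t then b ^ m else b ^ m') i)) =
      t * Real.log (rMax (C (a : ℤ) * X ^ k : ℤ[X]) (b ^ m)) +
      Real.log (rMax (C (a : ℤ) * X ^ k : ℤ[X]) (b ^ m')) := by
    rw [sum_range_succ]
    congr 1
    · have h1 : ∀ i ∈ range t, Real.log
          (rMax (C (a : ℤ) * X ^ k : ℤ[X]) ((fun i => if i < t then b ^ m else b ^ m') i)) =
          Real.log (rMax (C (a : ℤ) * X ^ k : ℤ[X]) (b ^ m)) := by
        intro i hi
        dsimp only
        rw [if_pos (mem_range.1 hi)]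
      rw [Finset.sum_congr rfl h1, sum_const, card_range, nsmul_eq_mul]
    · dsimp only
      rw [if_neg (by omega)]
  rw [hmain] at hdec
  have hR1 : (0 : ℝ) < rMax (C (a : ℤ) * X ^ k : ℤ[X]) (b ^ m) := by
    exact_mod_cast hr0 m
  have hR2 : (0 : ℝ) < rMax (C (a : ℤ) * X ^ k : ℤ[X]) (b ^ m') := by
    exact_mod_cast hr0 m'
  have hQ0 : (0 : ℝ) < Q := by exact_mod_cast hQ
  have hc : (0 : ℝ) < A.card := by exact_mod_cast hne.card_pos
  have hlog : Real.log A.card ≤ Real.log ((Q : ℝ) ^ t *
      (rMax (C (a : ℤ) * X ^ k : ℤ[X]) (b ^ m) : ℝ) ^ t *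
      (rMax (C (a : ℤ) * X ^ k : ℤ[X]) (b ^ m') : ℝ)) := by
    rw [Real.log_mul (by positivity) hR2.ne', Real.log_mul (by positivity) (by positivity),
      Real.log_pow, Real.log_pow]
    linarith
  have := (Real.log_le_log_iff hc (by positivity)).1 hlog
  exact_mod_cast this

end Vale.Agent.P042.H463
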