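import Vale.Agent.P042.R2.H463.Defs
import Vale.Agent.P042.R2.H463.Base
import Vale.Agent.P042.SS.EntLib

set_option autoImplicit false

/-! The decoupling inequality. -/

namespace Vale.Agent.P042.H463

open Polynomial Finset Vale.Agent.P042.SS

section ent

variable {β : Type*} {A : Finset ℤ}

/-- The uniform weight. -/
noncomputable def uw (A : Finset ℤ) : ℤ → ℝ := fun _ => 1 / (A.card : ℝ)

theorem uw_nonneg (A : Finset ℤ) : ∀ x ∈ A, 0 ≤ uw A x := fun _ _ => by unfold uw; positivity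

theorem uw_sum (hA : A.Nonempty) : ∑ x ∈ A, uw A x = 1 := by
  have : (A.card : ℝ) ≠ 0 := by
    have := hA.card_pos
    positivity
  unfold uw
  rw [Finset.sum_const, nsmul_eq_mul, mul_one_div, div_self this]

theorem pr_uw [DecidableEq β] (Y : ℤ → β) (x : ℤ) :
    pr A (uw A) Y x = ((A.filter fun y => Y y = Y x).card : ℝ) / A.card := by
  rw [pr_def']
  unfold uw
  rw [Finset.sum_const, nsmul_eq_mul, mul_one_div]

theorem ent_id (hA : A.Nonempty) : Ent A (uw A) (fun x => x) = Real.log A.card := by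
  classical
  have hc : (A.card : ℝ) ≠ 0 := by
    have := hA.card_pos
    positivity
  unfold Ent
  have h1 : ∀ x ∈ A, uw A x * Real.log (pr A (uw A) (fun x => x) x) =
      uw A x * (- Real.log A.card) := by
    intro x hx
    rw [pr_uw]
    have : (A.filter fun y => y = x) = {x} := by
      ext y
      simp only [Finset.mem_filter, Finset.mem_singleton]
      constructor
      · rintro ⟨_, h⟩; exact h
      · rintro rfl; exact ⟨hx, rfl⟩
    rw [this, Finset.card_singleton, Nat.cast_one, Real.log_div one_ne_zero hc, Real.log_one,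
      zero_sub]
  rw [Finset.sum_congr rfl h1, ← Finset.sum_mul, uw_sum hA, one_mul, neg_neg]

/-- If all fibres of `Y` in `A` have at most `M` elements. -/
theorem ent_fiber [DecidableEq β] (hA : A.Nonempty) (Y : ℤ → β) {M : ℕ}
    (hM : ∀ x ∈ A, (A.filter fun y => Y y = Y x).card ≤ M) :
    Real.log A.card ≤ Ent A (uw A) Y + Real.log M := by
  have hc0 : 0 < A.card := hA.card_pos
  have hc : (0 : ℝ) < A.card := by exact_mod_cast hc0
  unfold Ent
  have h1 : ∀ x ∈ A, uw A x * Real.log (pr A (uw A) Y x) ≤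
      uw A x * (Real.log M - Real.log A.card) := by
    intro x hx
    refine mul_le_mul_of_nonneg_left ?_ (uw_nonneg A x hx)
    rw [pr_uw]
    have h2 : 0 < (A.filter fun y => Y y = Y x).card :=
      Finset.card_pos.2 ⟨x, Finset.mem_filter.2 ⟨hx, rfl⟩⟩
    have h3 : (0 : ℝ) < ((A.filter fun y => Y y = Y x).card : ℝ) := by exact_mod_cast h2
    rw [Real.log_div h3.ne' hc.ne']
    have h4 : ((A.filter fun y => Y y = Y x).card : ℝ) ≤ M := by exact_mod_cast hM x hx
    have := Real.log_le_log h3 h4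
    linarith
  have h2 := Finset.sum_le_sum h1
  rw [← Finset.sum_mul, uw_sum hA, one_mul] at h2
  linarith

theorem entropy_eq {α : Type} (A : Finset ℤ) (f : ℤ → α) : entropy A f = Ent A (uw A) f := by
  classical
  unfold entropy Ent
  rw [← Finset.sum_neg_distrib]
  refine Finset.sum_congr rfl fun x hx => ?_
  rw [pr_uw]
  have h1 : uw A x = 1 / (A.card : ℝ) := rfl
  rw [h1, ← mul_neg, ← Real.log_inv, inv_div]

theorem cutInfo_eq (A : Finset ℤ) (hA : A.Nonempty) (s : ℕ) :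
    cutInfo A s = Ent A (uw A) (fun x => x / (s : ℤ)) + Ent A (uw A) (fun x => x % (s : ℤ)) -
      Real.log A.card := by
  have h1 : Ent A (uw A) (fun x => (x / (s : ℤ), x % (s : ℤ))) = Real.log A.card := by
    rw [← ent_id hA]
    refine Ent_congr ?_
    intro x _ y _
    constructor
    · intro h
      have h2 : x / (s : ℤ) = y / (s : ℤ) := (Prod.ext_iff.1 h).1
      have h3 : x % (s : ℤ) = y % (s : ℤ) := (Prod.ext_iff.1 h).2
      rw [← Int.mul_ediv_add_emod x s, ← Int.mul_ediv_add_emod y s, h2, h3]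
    · intro h
      have h' : x = y := h
      rw [h']
  unfold cutInfo
  rw [entropy_eq, entropy_eq, entropy_eq, h1]

end ent

/-- The fibres of all digits but one. -/
theorem fiber_bound {a k : ℕ} {A : Finset ℤ} (hA : DiffFree (C (a : ℤ) * X ^ k : ℤ[X]) A)
    {u n s : ℕ} (hu : 1 ≤ u) (hn : 1 ≤ n) (hs : s = u ^ k) (x : ℤ) :
    (A.filter fun y => (y / ((n * s : ℕ) : ℤ), y % (s : ℤ)) =
      (x / ((n * s : ℕ) : ℤ), x % (s : ℤ))).card ≤ rMax (C (a : ℤ) * X ^ k : ℤ[X]) n := by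
  classical
  have hs0 : (0 : ℤ) < (s : ℤ) := by
    rw [hs]; push_cast; positivity
  have hn0 : (0 : ℤ) < (n : ℤ) := by exact_mod_cast hn
  set B := A.filter fun y => (y / ((n * s : ℕ) : ℤ), y % (s : ℤ)) =
      (x / ((n * s : ℕ) : ℤ), x % (s : ℤ)) with hB
  -- every element of the fibre
  have key : ∀ y ∈ B, y = (x / ((n * s : ℕ) : ℤ)) * ((n : ℤ) * s) + x % (s : ℤ) +
      (u : ℤ) ^ k * ((y / (s : ℤ)) % n) := by
    intro y hy
    obtain ⟨hy1, hy2⟩ := Finset.mem_filter.1 hy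
    have h2 : y / ((n * s : ℕ) : ℤ) = x / ((n * s : ℕ) : ℤ) := (Prod.ext_iff.1 hy2).1
    have h3 : y % (s : ℤ) = x % (s : ℤ) := (Prod.ext_iff.1 hy2).2
    have h4 : y / (s : ℤ) / (n : ℤ) = y / ((n * s : ℕ) : ℤ) := by
      rw [Int.ediv_ediv_of_nonneg hs0.le]
      push_cast
      rw [mul_comm]
    have h5 := Int.mul_ediv_add_emod y (s : ℤ)
    have h6 := Int.mul_ediv_add_emod (y / (s : ℤ)) (n : ℤ)
    rw [h4, h2] at h6
    rw [h3] at h5
    have hsk : (s : ℤ) = (u : ℤ) ^ k := by rw [hs]; push_cast; rfl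
    rw [← hsk]
    calc y = (s : ℤ) * (y / s) + x % s := h5.symm
      _ = (s : ℤ) * ((n : ℤ) * (x / ((n * s : ℕ) : ℤ)) + (y / (s : ℤ)) % n) + x % s := by rw [h6]
      _ = _ := by ring
  have hinj : Set.InjOn (fun y : ℤ => (y / (s : ℤ)) % n) (B : Set ℤ) := by
    intro y hy z hz h
    rw [key y (by exact_mod_cast hy), key z (by exact_mod_cast hz)]
    have h' : (y / (s : ℤ)) % n = (z / (s : ℤ)) % n := h
    rw [h']
  rw [← Finset.card_image_of_injOn hinj]
  refine card_le_rMax' ?_ n ?_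
  · refine DiffFree.of_scale hA hu ((x / ((n * s : ℕ) : ℤ)) * ((n : ℤ) * s) + x % (s : ℤ)) ?_
    intro d hd
    obtain ⟨y, hy, rfl⟩ := Finset.mem_image.1 hd
    have := key y hy
    rw [← this]
    exact (Finset.mem_filter.1 hy).1
  · intro d hd
    obtain ⟨y, hy, rfl⟩ := Finset.mem_image.1 hd
    exact ⟨Int.emod_nonneg _ hn0.ne', Int.emod_lt_of_pos _ hn0⟩

/-- **The decoupling inequality.** -/
theorem decoupling {a k : ℕ} (T : ℕ) (s n u : ℕ → ℕ) (hs0 : s 0 = 1)
    (hn : ∀ i, i ≤ T → 1 ≤ n i) (hs : ∀ i, i ≤ T → s (i + 1) = n i * s i)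
    (hu : ∀ i, i ≤ T → 1 ≤ u i ∧ s i = u i ^ k)
    {A : Finset ℤ} (hne : A.Nonempty) (hA : DiffFree (C (a : ℤ) * X ^ k : ℤ[X]) A)
    (hA1 : ∀ x ∈ A, 0 ≤ x ∧ x < s (T + 1)) :
    Real.log A.card ≤ ∑ i ∈ range (T + 1), Real.log (rMax (C (a : ℤ) * X ^ k : ℤ[X]) (n i)) +
      ∑ i ∈ range T, cutInfo A (s (i + 1)) := by
  classical
  have hw := uw_nonneg A
  have hw1 := uw_sum hne
  -- one digit
  have h1 : ∀ i ∈ range (T + 1), Real.log A.card ≤
      (Real.log (rMax (C (a : ℤ) * X ^ k : ℤ[X]) (n i)) +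
        Ent A (uw A) (fun x => x / ((s (i + 1) : ℕ) : ℤ))) +
        Ent A (uw A) (fun x => x % ((s i : ℕ) : ℤ)) := by
    intro i hi
    have hi' : i ≤ T := Nat.lt_succ_iff.1 (Finset.mem_range.1 hi)
    have h2 := ent_fiber hne (fun y => (y / ((n i * s i : ℕ) : ℤ), y % ((s i : ℕ) : ℤ)))
      (fun x _ => fiber_bound hA (hu i hi').1 (hn i hi') (hu i hi').2 x)
    rw [← hs i hi'] at h2
    have h3 := Ent_pair_le_add hw hw1 (fun y : ℤ => y / ((s (i + 1) : ℕ) : ℤ))
      (fun y : ℤ => y % ((s i : ℕ) : ℤ))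
    linarith
  have h2 := Finset.sum_le_sum h1
  rw [Finset.sum_const, Finset.card_range, nsmul_eq_mul, Finset.sum_add_distrib,
    Finset.sum_add_distrib] at h2
  rw [Finset.sum_range_succ (fun i => Ent A (uw A) (fun x => x / ((s (i + 1) : ℕ) : ℤ))) T,
    Finset.sum_range_succ' (fun i => Ent A (uw A) (fun x => x % ((s i : ℕ) : ℤ))) T] at h2
  have h3 : Ent A (uw A) (fun x => x / ((s (T + 1) : ℕ) : ℤ)) = 0 := by
    refine Ent_eq_zero hw1 ?_
    intro x hx y hy
    have e1 : x / ((s (T + 1) : ℕ) : ℤ) = 0 := Int.ediv_eq_zero_of_lt (hA1 x hx).1 (hA1 x hx).2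
    have e2 : y / ((s (T + 1) : ℕ) : ℤ) = 0 := Int.ediv_eq_zero_of_lt (hA1 y hy).1 (hA1 y hy).2
    rw [e1, e2]
  have h4 : Ent A (uw A) (fun x => x % ((s 0 : ℕ) : ℤ)) = 0 := by
    refine Ent_eq_zero hw1 ?_
    intro x hx y hy
    rw [hs0]
    simp
  have h5 : ∑ i ∈ range T, cutInfo A (s (i + 1)) =
      ∑ i ∈ range T, Ent A (uw A) (fun x => x / ((s (i + 1) : ℕ) : ℤ)) +
      ∑ i ∈ range T, Ent A (uw A) (fun x => x % ((s (i + 1) : ℕ) : ℤ)) -
      T * Real.log A.card := by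
    rw [← Finset.sum_add_distrib]
    have e : ∑ i ∈ range T, cutInfo A (s (i + 1)) = ∑ i ∈ range T,
        ((Ent A (uw A) (fun x => x / ((s (i + 1) : ℕ) : ℤ)) +
        Ent A (uw A) (fun x => x % ((s (i + 1) : ℕ) : ℤ))) - Real.log A.card) :=
      Finset.sum_congr rfl fun i _ => cutInfo_eq A hne _
    rw [e, Finset.sum_sub_distrib, Finset.sum_const, Finset.card_range, nsmul_eq_mul]
  rw [h3, h4] at h2
  rw [h5]
  push_cast at h2
  linarith

end Vale.Agent.P042.H463
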