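import Vale.Agent.P042.Defs

set_option autoImplicit false

/-!
P042: cut information of a finite set of integers, and sets of integers accepted by
nondeterministic automata which read the digits.
-/

namespace Vale.Agent.P042.H463

open Finset

open Classical in
/-- The Shannon entropy of `f x`, where `x` is a uniformly distributed random element of the finite
set `A`: the mean of `log (|A| / |{y ∈ A : f y = f x}|)`. -/
noncomputable def entropy {α : Type} (A : Finset ℤ) (f : ℤ → α) : ℝ :=
  ∑ x ∈ A, 1 / (A.card : ℝ) * Real.log ((A.card : ℝ) / (A.filter fun y => f y = f x).card)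

/-- The mutual information between `x / s` (rounded down) and `x % s`, where `x` is a uniformly
distributed random element of the finite set `A`. -/
noncomputable def cutInfo (A : Finset ℤ) (s : ℕ) : ℝ :=
  entropy A (fun x => x / (s : ℤ)) + entropy A (fun x => x % (s : ℤ)) -
    entropy A (fun x => (x / (s : ℤ), x % (s : ℤ)))

/-- A nondeterministic automaton with the states `0, ..., Q - 1`, whose transitions `T i p d q`
(from the state `p` to the state `q` with the digit `d`) may depend on the position `i` of the
digit, has the initial states `I` and the final states `F`. Then `A` is the set of all integers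
`∑_{i<L} d_i b^i`, `0 ≤ d_i < b`, whose digits are accepted: there are states `q_0, ..., q_L` with
`q_0` initial, `q_L` final and a transition from `q_i` to `q_(i+1)` with the digit `d_i`. -/
def Accepted (b : ℕ) {Q : ℕ} (T : ℕ → Fin Q → ℕ → Fin Q → Prop) (I F : Fin Q → Prop) (L : ℕ)
    (A : Finset ℤ) : Prop :=
  ∀ x : ℤ, x ∈ A ↔ ∃ (d : ℕ → ℕ) (q : ℕ → Fin Q), I (q 0) ∧ F (q L) ∧
    (∀ i, i < L → d i < b ∧ T i (q i) (d i) (q (i + 1))) ∧
    x = ((∑ i ∈ range L, d i * b ^ i : ℕ) : ℤ)

end Vale.Agent.P042.H463
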