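import Vale.Agent.P042.R2.H463.Info
import Vale.Agent.P042.R2.H463.Auto
import Vale.Agent.P042.R2.H463.Num
import Vale.Agent.P042.UU.Wire

set_option autoImplicit false

namespace Vale.Agent.P042.H463

open Polynomial Finset

theorem almostPower {a k : ℕ} (ha : 1 ≤ a) (hk : 2 ≤ k) :
    AlmostPower (rMax (C (a : ℤ) * X ^ k : ℤ[X])) := by
  have ha0 : (a : ℤ) ≠ 0 := by
    have : a ≠ 0 := by omega
    exact_mod_cast this
  have hdeg : (C (a : ℤ) * X ^ k : ℤ[X]).natDegree = k := natDegree_C_mul_X_pow k _ ha0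
  have hlead : (C (a : ℤ) * X ^ k : ℤ[X]).leadingCoeff = a := leadingCoeff_C_mul_X_pow _ k
  have hint : Intersective (C (a : ℤ) * X ^ k : ℤ[X]) := by
    intro q _
    refine ⟨0, ?_⟩
    have : (C (a : ℤ) * X ^ k : ℤ[X]).eval 0 = 0 := by
      rw [eval_mul, eval_pow, eval_X, zero_pow (by omega), mul_zero]
    rw [this]
    exact dvd_zero _
  intro c hc
  exact Vale.Agent.P042.UU.final5_holds _ (by rw [hdeg]; exact hk)
    (by rw [hlead]; exact_mod_cast ha) hint c hc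

/-- Sets accepted by an automaton. -/
theorem auto_bound {a k : ℕ} (ha : 1 ≤ a) (hk : 2 ≤ k) {ε : ℝ} (hε : 0 < ε) :
    ∃ δ K : ℝ, 0 < δ ∧ 0 < K ∧ ∀ (b Q L : ℕ) (T : ℕ → Fin Q → ℕ → Fin Q → Prop)
      (I F : Fin Q → Prop) (A : Finset ℤ), 2 ≤ b → AcceptedP b T I F L A →
      DiffFree (C (a : ℤ) * X ^ k : ℤ[X]) A →
      (A.card : ℝ) ≤ K * ((b : ℝ) ^ L) ^ (1 - δ / (1 + Real.log (b * Q)) ^ ε) := by
  obtain ⟨δ, K, hδ, hK, h⟩ := num_auto k (by omega) (rMax (C (a : ℤ) * X ^ k : ℤ[X]))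
    (almostPower ha hk) ε hε
  refine ⟨δ, K, hδ, hK, ?_⟩
  intro b Q L T I F A hb hacc hA
  rcases Nat.eq_zero_or_pos Q with rfl | hQ
  · have : A = ∅ := by
      ext x
      rw [hacc x]
      constructor
      · rintro ⟨_, p, _⟩
        exact p.elim0
      · intro hx
        simp at hx
    rw [this, Finset.card_empty, Nat.cast_zero]
    positivity
  · refine h b Q L A.card hb hQ (card_le_rMax' hA _ (accepted_lt (by omega) hacc)) ?_
    intro m t m' _ hkm hL
    exact card_accepted (by omega) hkm hacc hA t m' hL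

end Vale.Agent.P042.H463
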