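import Vale.Agent.P042.R2.H463.Cut

set_option autoImplicit false

/-! The cut information of a large difference free set. -/

namespace Vale.Agent.P042.H463

open Polynomial Finset

/-- The bound for `r_h` as a hypothesis. -/
def AlmostPower (r : ℕ → ℕ) : Prop :=
  ∀ c : ℝ, c < 1 → ∃ C : ℝ, 0 < C ∧ ∀ N : ℕ, 1 ≤ N →
    (r N : ℝ) ≤ C * N * Real.exp (-(Real.log N) ^ c)

theorem log_r_le {h : ℤ[X]} (H : AlmostPower (rMax h)) {c : ℝ} (hc0 : 0 < c) (hc1 : c < 1) :
    ∃ l₀ : ℝ, 1 ≤ l₀ ∧ ∀ b m : ℕ, 2 ≤ b → l₀ ≤ m * Real.log b →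
      Real.log (rMax h (b ^ m)) ≤ m * Real.log b - (m * Real.log b) ^ c / 2 := by
  obtain ⟨C, hC, hr⟩ := H c hc1
  refine ⟨(2 * |Real.log C|) ^ (1 / c) + 1, ?_, ?_⟩
  · have : 0 ≤ (2 * |Real.log C|) ^ (1 / c) := Real.rpow_nonneg (by positivity) _
    linarith
  · intro b m hb hl
    have hb0 : (0 : ℝ) < b := by
      have : 0 < b := by omega
      exact_mod_cast this
    have h1 : 1 ≤ b ^ m := Nat.one_le_pow _ _ (by omega)
    have h2 : (1 : ℝ) ≤ rMax h (b ^ m) := by exact_mod_cast one_le_rMax h h1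
    have h3 := hr (b ^ m) h1
    have hbm : (0 : ℝ) < ((b ^ m : ℕ) : ℝ) := by exact_mod_cast h1
    have hlog : Real.log ((b ^ m : ℕ) : ℝ) = m * Real.log b := by
      push_cast
      rw [Real.log_pow]
    have h4 := Real.log_le_log (by linarith) h3
    rw [Real.log_mul (by positivity) (Real.exp_pos _).ne', Real.log_mul hC.ne' hbm.ne',
      Real.log_exp, hlog] at h4
    have h5 : 0 ≤ (2 * |Real.log C|) ^ (1 / c) := Real.rpow_nonneg (by positivity) _
    have h6 : 2 * |Real.log C| ≤ (m * Real.log b) ^ c := by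
      have h7 : (2 * |Real.log C|) ^ (1 / c) ≤ m * Real.log b := by linarith
      have h8 := Real.rpow_le_rpow h5 h7 hc0.le
      rw [← Real.rpow_mul (by positivity), one_div, inv_mul_cancel₀ hc0.ne', Real.rpow_one] at h8
      exact h8
    have h9 := le_abs_self (Real.log C)
    linarith

/-- **A large difference free set has large cut information at all scales.** -/
theorem info_of_large {a k : ℕ} (H : AlmostPower (rMax (C (a : ℤ) * X ^ k : ℤ[X])))
    {c : ℝ} (hc0 : 0 < c) (hc1 : c < 1) :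
    ∃ l₀ : ℝ, 1 ≤ l₀ ∧ ∀ b m T : ℕ, 2 ≤ b → k ∣ m → l₀ ≤ m * Real.log b → ∀ A : Finset ℤ,
      (∀ x ∈ A, 0 ≤ x ∧ x < ((b ^ (m * (T + 1)) : ℕ) : ℤ)) →
      DiffFree (C (a : ℤ) * X ^ k : ℤ[X]) A →
      ((b : ℝ) ^ (m * (T + 1))) ^ (1 - (m * Real.log b) ^ (c - 1) / 4) ≤ A.card →
      (T + 1) * ((m * Real.log b) ^ c / 4) ≤ ∑ i ∈ range T, cutInfo A (b ^ (m * (i + 1))) := by
  obtain ⟨l₀, hl₀, hr⟩ := log_r_le H hc0 hc1
  refine ⟨l₀, hl₀, ?_⟩
  intro b m T hb hkm hl A hA1 hA hcard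
  have hb0 : (0 : ℝ) < b := by
    have : 0 < b := by omega
    exact_mod_cast this
  set l : ℝ := m * Real.log b with hldef
  have hlpos : 0 < l := by linarith
  have hpos : 0 < ((b : ℝ) ^ (m * (T + 1))) ^ (1 - l ^ (c - 1) / 4) := by positivity
  have hc0' : (0 : ℝ) < A.card := lt_of_lt_of_le hpos hcard
  have hne : A.Nonempty := Finset.card_pos.1 (by exact_mod_cast hc0')
  obtain ⟨e, he⟩ := hkm
  have h1 := decoupling (a := a) (k := k) T (fun i => b ^ (m * i)) (fun _ => b ^ m)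
    (fun i => b ^ (e * i)) (by simp) (fun i _ => Nat.one_le_pow _ _ (by omega))
    (fun i _ => by ring) (fun i _ => ⟨Nat.one_le_pow _ _ (by omega), by
      rw [he, ← pow_mul]; ring_nf⟩) hne hA hA1
  rw [Finset.sum_const, Finset.card_range, nsmul_eq_mul] at h1
  have h2 := hr b m hb hl
  have h3 := Real.log_le_log hpos hcard
  rw [Real.log_rpow (by positivity), Real.log_pow] at h3
  have h4 : ((m * (T + 1) : ℕ) : ℝ) * Real.log b = (T + 1) * l := by
    rw [hldef]; push_cast; ring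
  rw [h4] at h3
  have h5 : l ^ (c - 1) * l = l ^ c := by
    rw [← Real.rpow_add_one hlpos.ne']
    congr 1
    ring
  have h6 : (0 : ℝ) ≤ (T : ℝ) + 1 := by positivity
  have h7 := mul_le_mul_of_nonneg_left h2 h6
  have h8 : (1 - l ^ (c - 1) / 4) * ((T + 1) * l) = (T + 1) * (l - l ^ c / 4) := by
    rw [← h5]; ring
  rw [h8] at h3
  push_cast at h1
  have h9 : ∑ i ∈ range T, cutInfo A ((fun i => b ^ (m * i)) (i + 1)) =
      ∑ i ∈ range T, cutInfo A (b ^ (m * (i + 1))) := rfl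
  nlinarith

end Vale.Agent.P042.H463
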