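import Vale.Agent.P042.R2.H463.Defs

set_option autoImplicit false

/-! Paths of automata. -/

namespace Vale.Agent.P042.H463

open Finset

/-- `Path b T j l p v q`: there is a path of length `l` which starts at the position `j` in the
state `p`, ends in the state `q` and whose digits `d_0, ..., d_(l-1) < b` satisfy
`v = ∑ d_i b^i`. -/
def Path (b : ℕ) {Q : ℕ} (T : ℕ → Fin Q → ℕ → Fin Q → Prop) : ℕ → ℕ → Fin Q → ℕ → Fin Q → Prop
  | _, 0, p, v, q => v = 0 ∧ p = q
  | j, l + 1, p, v, q => ∃ (d w : ℕ) (p' : Fin Q), d < b ∧ T j p d p' ∧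
      Path b T (j + 1) l p' w q ∧ v = d + b * w

/-- `A` is the set of the values of the accepted words. -/
def AcceptedP (b : ℕ) {Q : ℕ} (T : ℕ → Fin Q → ℕ → Fin Q → Prop) (I F : Fin Q → Prop) (L : ℕ)
    (A : Finset ℤ) : Prop :=
  ∀ x : ℤ, x ∈ A ↔ ∃ (v : ℕ) (p q : Fin Q), I p ∧ F q ∧ Path b T 0 L p v q ∧ (v : ℤ) = x

theorem path_iff {b Q : ℕ} (T : ℕ → Fin Q → ℕ → Fin Q → Prop) : ∀ (l j : ℕ) (p q : Fin Q) (v : ℕ),
    Path b T j l p v q ↔ ∃ (d : ℕ → ℕ) (s : ℕ → Fin Q), s 0 = p ∧ s l = q ∧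
      (∀ i, i < l → d i < b ∧ T (j + i) (s i) (d i) (s (i + 1))) ∧
      v = ∑ i ∈ range l, d i * b ^ i := by
  intro l
  induction l with
  | zero =>
    intro j p q v
    constructor
    · rintro ⟨rfl, rfl⟩
      exact ⟨fun _ => 0, fun _ => p, rfl, rfl, fun i hi => absurd hi (by omega), by simp⟩
    · rintro ⟨d, s, h0, h1, _, rfl⟩
      exact ⟨by simp, h0.symm.trans h1⟩
  | succ l ih =>
    intro j p q v
    constructor
    · rintro ⟨d, w, p', hd, hT, hP, rfl⟩
      obtain ⟨d', s, h0, h1, h2, rfl⟩ := (ih (j + 1) p' q w).1 hP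
      refine ⟨fun i => Nat.casesOn i d d', fun i => Nat.casesOn i p s, rfl, h1, ?_, ?_⟩
      · intro i hi
        cases i with
        | zero =>
          refine ⟨hd, ?_⟩
          change T (j + 0) p d (s 0)
          rw [h0]; exact hT
        | succ i =>
          have := h2 i (by omega)
          refine ⟨this.1, ?_⟩
          have e : j + (i + 1) = j + 1 + i := by ring
          rw [e]
          exact this.2
      · rw [Finset.sum_range_succ']
        simp only [pow_zero, mul_one]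
        rw [Finset.mul_sum, add_comm]
        congr 1
        refine Finset.sum_congr rfl fun i _ => ?_
        change b * (d' i * b ^ i) = d' i * b ^ (i + 1)
        ring
    · rintro ⟨d, s, h0, h1, h2, rfl⟩
      have h3 := h2 0 (by omega)
      refine ⟨d 0, ∑ i ∈ range l, d (i + 1) * b ^ i, s 1, h3.1, ?_, ?_, ?_⟩
      · rw [← h0]; exact h3.2
      · refine (ih (j + 1) (s 1) q _).2 ⟨fun i => d (i + 1), fun i => s (i + 1), rfl, h1, ?_, rfl⟩
        intro i hi
        have := h2 (i + 1) (by omega)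
        refine ⟨this.1, ?_⟩
        have e : j + 1 + i = j + (i + 1) := by ring
        rw [e]
        exact this.2
      · rw [Finset.sum_range_succ', Finset.mul_sum]
        simp only [pow_zero, mul_one]
        rw [add_comm]
        congr 1
        refine Finset.sum_congr rfl fun i _ => ?_
        ring

theorem accepted_iff {b Q : ℕ} {T : ℕ → Fin Q → ℕ → Fin Q → Prop} {I F : Fin Q → Prop} {L : ℕ}
    {A : Finset ℤ} : Accepted b T I F L A ↔ AcceptedP b T I F L A := by
  have key : ∀ x : ℤ, (∃ (d : ℕ → ℕ) (q : ℕ → Fin Q), I (q 0) ∧ F (q L) ∧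
      (∀ i, i < L → d i < b ∧ T i (q i) (d i) (q (i + 1))) ∧
      x = ((∑ i ∈ range L, d i * b ^ i : ℕ) : ℤ)) ↔
      ∃ (v : ℕ) (p q : Fin Q), I p ∧ F q ∧ Path b T 0 L p v q ∧ (v : ℤ) = x := by
    intro x
    constructor
    · rintro ⟨d, q, hI, hF, h, rfl⟩
      refine ⟨_, q 0, q L, hI, hF, (path_iff T L 0 (q 0) (q L) _).2
        ⟨d, q, rfl, rfl, fun i hi => ?_, rfl⟩, rfl⟩
      rw [Nat.zero_add]
      exact h i hi
    · rintro ⟨v, p, q, hI, hF, hP, rfl⟩
      obtain ⟨d, s, rfl, rfl, h, rfl⟩ := (path_iff T L 0 p q v).1 hP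
      refine ⟨d, s, hI, hF, fun i hi => ?_, rfl⟩
      have := h i hi
      rwa [Nat.zero_add] at this
  unfold Accepted AcceptedP
  exact forall_congr' fun x => iff_congr Iff.rfl (key x)

end Vale.Agent.P042.H463
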